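import Mathlib

/-!
# P054 / T2: the geometric window

Finitely many monotone bounded sequences of natural numbers are constant on a window
`[i₀, i₀ + C i₀ + C']` with `i₀` bounded by a constant: one of the first `M + 1` consecutive
intervals `[x, x + C x + C']` contains no jump.
-/

open Finset

namespace Vale.Agent.P054.T2.H958

/-- `x_0 = 0`, `x_(m+1) = x_m + C x_m + C'` -/
def geo (C C' : ℕ) : ℕ → ℕ
  | 0 => 0
  | m + 1 => geo C C' m + (C * geo C C' m + C')

theorem geo_mono (C C' : ℕ) : Monotone (geo C C') :=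
  monotone_nat_of_le_succ fun m => by
    change geo C C' m ≤ geo C C' m + (C * geo C C' m + C')
    omega

/-- **geometric window, nondecreasing sequences** (gradient ranks `v j i`): `H` = length of the
range of `i`, `N` = bound at the end of the range. -/
theorem exists_geo_window {κ : Type*} (J : Finset κ) (v : κ → ℕ → ℕ) (N C C' H : ℕ)
    (hmono : ∀ j ∈ J, ∀ i < H, v j i ≤ v j (i + 1)) (hN : ∀ j ∈ J, v j H ≤ N)
    (hH : geo C C' (J.card * N + 1) ≤ H) :
    ∃ i₀, i₀ ≤ geo C C' (J.card * N) ∧ i₀ + (C * i₀ + C') ≤ H ∧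
      ∀ j ∈ J, ∀ i, i₀ ≤ i → i ≤ i₀ + (C * i₀ + C') → v j i = v j i₀ := by
  classical
  have hle : ∀ j ∈ J, ∀ a b, a ≤ b → b ≤ H → v j a ≤ v j b := by
    intro j hj a b hab hb
    induction b, hab using Nat.le_induction with
    | base => exact le_rfl
    | succ b hab ih => exact (ih (by omega)).trans (hmono j hj b (by omega))
  by_contra hcon
  push Not at hcon
  have hgeoH : ∀ m ≤ J.card * N + 1, geo C C' m ≤ H := fun m hm =>
    (geo_mono C C' hm).trans hH
  have key : ∀ m, m ≤ J.card * N + 1 → m ≤ ∑ j ∈ J, v j (geo C C' m) := by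
    intro m
    induction m with
    | zero => intro _; exact Nat.zero_le _
    | succ m ih =>
      intro hm
      have h1 := ih (by omega)
      have h2 : geo C C' m + (C * geo C C' m + C') ≤ H := hgeoH (m + 1) hm
      obtain ⟨j, hj, i, hi1, hi2, hne⟩ := hcon (geo C C' m)
        (geo_mono C C' (show m ≤ J.card * N by omega)) h2
      have h3 : v j (geo C C' m) < v j (geo C C' (m + 1)) := by
        have h4 := hle j hj _ _ hi1 (hi2.trans h2)
        have h5 : v j i ≤ v j (geo C C' (m + 1)) := hle j hj _ _ hi2 (hgeoH (m + 1) hm)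
        omega
      have h6 : ∑ j ∈ J, v j (geo C C' m) < ∑ j ∈ J, v j (geo C C' (m + 1)) := by
        refine Finset.sum_lt_sum (fun j' hj' => ?_) ⟨j, hj, h3⟩
        exact hle j' hj' _ _ (geo_mono C C' (Nat.le_succ m)) (hgeoH (m + 1) hm)
      omega
  have h7 := key (J.card * N + 1) le_rfl
  have h8 : ∑ j ∈ J, v j (geo C C' (J.card * N + 1)) ≤ J.card * N := by
    refine (Finset.sum_le_card_nsmul J _ N fun j hj => ?_).trans (by simp)
    exact (hle j hj _ _ hH le_rfl).trans (hN j hj)
  omega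

/-- **geometric window, nonincreasing sequences** (slopes) -/
theorem exists_geo_window_anti {κ : Type*} (J : Finset κ) (v : κ → ℕ → ℕ) (N C C' H : ℕ)
    (hanti : ∀ j ∈ J, ∀ i < H, v j (i + 1) ≤ v j i) (hN : ∀ j ∈ J, v j 0 ≤ N)
    (hH : geo C C' (J.card * N + 1) ≤ H) :
    ∃ i₀, i₀ ≤ geo C C' (J.card * N) ∧ i₀ + (C * i₀ + C') ≤ H ∧
      ∀ j ∈ J, ∀ i, i₀ ≤ i → i ≤ i₀ + (C * i₀ + C') → v j i = v j i₀ := by
  classical
  have hle : ∀ j ∈ J, ∀ i ≤ H, v j i ≤ N := by
    intro j hj i
    induction i with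
    | zero => intro _; exact hN j hj
    | succ i ih => intro hi; exact (hanti j hj i (by omega)).trans (ih (by omega))
  obtain ⟨i₀, h0, h1, h2⟩ := exists_geo_window J (fun j i => N - v j i) N C C' H
    (fun j hj i hi => by have := hanti j hj i hi; omega) (fun j _ => by omega) hH
  refine ⟨i₀, h0, h1, fun j hj i hi1 hi2 => ?_⟩
  have h3 := h2 j hj i hi1 hi2
  have h4 := hle j hj i (hi2.trans h1)
  have h5 := hle j hj i₀ (by omega)
  omega

end Vale.Agent.P054.T2.H958
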