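import Vale.Agent.P054.T2.H395.Comap
import Vale.Agent.P054.T2.H275.VertInd

set_option autoImplicit false

/-!
# P054 / T2, leaf [DOM], final form: the germ of a system `f₁ (base part), F` with the exact
vertical rank restricts to the germ of `f₁` (helper958; over 275's `horiz_w` and 395's
`comap_germ`).
-/

open MvPolynomial Module

namespace Vale.Agent.P054.T2.H958

open H930 H395

section Point

variable {α β : Type*} [Fintype α] [DecidableEq α] [Fintype β] [DecidableEq β]
  {k : Type*} [Field k]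

/-- the matrix of the vertical gradients at `p` -/
noncomputable def vmat {c : ℕ} (p : α ⊕ β → k) (F : Fin c → MvPolynomial (α ⊕ β) k) :
    Matrix (Fin c) β k :=
  (Matrix.of fun i b => pderiv (Sum.inr b) (F i) :
        Matrix (Fin c) β (MvPolynomial (α ⊕ β) k)).map (eval p)

/-- the `m` last equations have independent vertical gradients if the vertical rank is `≥ m` -/
theorem linInd_of_rank {c m : ℕ} (p : α ⊕ β → k) (f : Fin c → MvPolynomial α k)
    (F : Fin (c + m) → MvPolynomial (α ⊕ β) k)
    (hleft : ∀ i, F (Fin.castAdd m i) = rename Sum.inl (f i))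
    (hr : m ≤ (vmat p F).rank) :
    LinearIndependent k
      (fun (j : Fin m) (z : β) => eval p (pderiv (Sum.inr z) (F (Fin.natAdd c j)))) := by
  classical
  set G : Fin m → β → k := fun j z => eval p (pderiv (Sum.inr z) (F (Fin.natAdd c j))) with hG
  have hrow0 : ∀ i : Fin c, (vmat p F).row (Fin.castAdd m i) = 0 := by
    intro i
    funext z
    have h1 := congrFun (grad_rename_inl p (f i)) (Sum.inr z)
    simp only [grad, Sum.elim_inr, Pi.zero_apply] at h1
    change eval p (pderiv (Sum.inr z) (F (Fin.castAdd m i))) = 0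
    rw [hleft, h1]
  have hspan : Submodule.span k (Set.range (vmat p F).row) = Submodule.span k (Set.range G) := by
    refine le_antisymm ?_ ?_
    · rw [Submodule.span_le]
      rintro _ ⟨i, rfl⟩
      refine Fin.addCases (fun i => ?_) (fun j => ?_) i
      · rw [hrow0 i]; exact Submodule.zero_mem _
      · exact Submodule.subset_span ⟨j, rfl⟩
    · rw [Submodule.span_le]
      rintro _ ⟨j, rfl⟩
      exact Submodule.subset_span ⟨Fin.natAdd c j, rfl⟩
  have hrank : (vmat p F).rank = finrank k (Submodule.span k (Set.range G)) := by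
    rw [Matrix.rank_eq_finrank_span_row, ← hspan]
  rw [hrank] at hr
  have h2 : finrank k (Submodule.span k (Set.range G)) ≤ Fintype.card (Fin m) :=
    finrank_range_le_card G
  rw [Fintype.card_fin] at h2
  rw [linearIndependent_iff_card_eq_finrank_span, Fintype.card_fin]
  exact le_antisymm hr h2

/-- the base part of an independent system is independent -/
theorem indf_of_ind {c m : ℕ} (p : α ⊕ β → k) (f : Fin c → MvPolynomial α k)
    (F : Fin (c + m) → MvPolynomial (α ⊕ β) k)
    (hleft : ∀ i, F (Fin.castAdd m i) = rename Sum.inl (f i))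
    (hind : LinearIndependent k (fun i => grad p (F i))) :
    LinearIndependent k (fun i => grad (fun x => p (Sum.inl x)) (f i)) := by
  have h1 := hind.comp (Fin.castAdd m) (Fin.castAdd_injective c m)
  rw [Fintype.linearIndependent_iff] at h1 ⊢
  intro g hg
  refine h1 g ?_
  funext z
  have h2 : ∀ i, grad p (F (Fin.castAdd m i)) = Sum.elim (grad (fun x => p (Sum.inl x)) (f i)) 0 := by
    intro i
    rw [hleft, grad_rename_inl]
  simp only [Function.comp_apply, h2, Finset.sum_apply, Pi.smul_apply, Pi.zero_apply,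
    smul_eq_mul]
  rcases z with z | z
  · have h3 := congrFun hg z
    simpa [Finset.sum_apply] using h3
  · simp

/-- **[DOM], one point**: vertical rank `≥ m` at `p` ⊢ the germ of the big system restricts to the
germ of the base system. -/
theorem comap_eq_of_rank {c m : ℕ} (p : α ⊕ β → k) (f : Fin c → MvPolynomial α k)
    (F : Fin (c + m) → MvPolynomial (α ⊕ β) k)
    (hleft : ∀ i, F (Fin.castAdd m i) = rename Sum.inl (f i))
    (hF : ∀ i, eval p (F i) = 0)
    (hind : LinearIndependent k (fun i => grad p (F i)))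
    (hr : m ≤ (vmat p F).rank) :
    (germ p F).comap (rename (R := k) (Sum.inl : α → α ⊕ β)) =
      germ (fun x => p (Sum.inl x)) f :=
  comap_germ p f F hleft hF (indf_of_ind p f F hleft hind) (linInd_of_rank p f F hleft hr)

end Point

/-- **[DOM], final form.**  `f₁` = system of the base family (H2 on `(g,r)` resp. H1 on `(g,s)`),
`f` = system of the big family (T on `(g,s,r)`) with first block `f₁`, vertical rank exactly `ρ`,
[GOOD] for the big family, sharp lower bound for the base family.  Then the prime of the big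
family restricts to the prime of the base family at every good point, and the number of the
vertical equations is `ρ`. -/
theorem dom {K : Type*} [Field K] [CharZero K] {α β : Type*} [Fintype α] [DecidableEq α] [Fintype β]
    [DecidableEq β]
    {ι : Type*} (E : Set ι) (A : Finset ι)
    (z : ι → α ⊕ β → K) {c₁ m : ℕ} (hcN : c₁ ≤ Fintype.card α)
    (f₁ : Fin c₁ → MvPolynomial α K)
    (f : Fin (c₁ + m) → MvPolynomial (α ⊕ β) K)
    (hleft : ∀ i, f (Fin.castAdd m i) = rename Sum.inl (f₁ i))
    (δ : ℕ → ℕ) (hδ : ∀ j < c₁, 1 ≤ δ j)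
    (wα : α → ℕ) (hwα : ∀ i, 1 ≤ wα i)
    (W D : ℕ) (hW : 1 ≤ W) (hD : 1 ≤ D) (hwW : ∀ i, wα i ≤ W)
    (hf1 : ∀ j : Fin c₁, f₁ j ∈ H580.Vw K wα (δ j))
    (hf2 : ∀ j : Fin m, f (Fin.natAdd c₁ j) ∈ H580.Vw K (Sum.elim wα (fun _ => W)) (W * D))
    (hf : ∀ i ∈ A, ∀ j, eval (z i) (f j) = 0)
    (hind : ∀ i ∈ A, LinearIndependent K (fun j => H930.grad (z i) (f j)))
    (l ρ : ℕ) (hρ : ρ ≤ Fintype.card β)
    (hl : ∀ j b, pderiv (Sum.inr b) (f j) ∈ H580.Vw K (Sum.elim wα (fun _ => W)) l)
    (hgood : ∀ i ∈ A, ∀ F ∈ H580.Vw K (Sum.elim wα (fun _ => W)) ((ρ + 1) * l),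
      (∀ x ∈ E, eval (z x) F = 0) → F ∈ H930.germ (z i) f)
    (hr : ∀ x ∈ E, (vmat (z x) f).rank ≤ ρ)
    (q L : ℕ) (hq : 1 ≤ q)
    (hlow : ∀ A' ⊆ A, A.card ≤ Fintype.card β ^ (Fintype.card β - ρ) * A'.card →
      (∏ j ∈ Finset.range c₁, δ j) * (q * W) ^ (Fintype.card α - c₁)
        ≤ L * ((∏ x, wα x) *
          H580.hilbF (H580.Vw K wα) ((⨅ i ∈ A', H930.germ (z i) f).comap (rename Sum.inl)) (q * W)))
    (hbig : 2 ^ (Fintype.card α + (c₁ + m)) * L *
      (Fintype.card β - ρ + 2 + (c₁ + m)) ^ (Fintype.card α + Fintype.card β)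
      * D ^ m ≤ q) :
    m ≤ ρ ∧ ∀ i ∈ A, ρ ≤ (vmat (z i) f).rank →
      m = ρ ∧ (germ (z i) f).comap (rename (R := K) (Sum.inl : α → α ⊕ β)) =
        germ (fun x => z i (Sum.inl x)) f₁ := by
  have hv : Fintype.card β - (Fintype.card β - ρ) = ρ := by omega
  have h := H275.horiz_w E A z (c := c₁ + m) (c₁ := c₁) (Nat.le_add_right _ _) hcN f δ hδ wα hwα
    W D hW hD hwW
    (by
      intro j hj
      have : j = Fin.castAdd m ⟨j, hj⟩ := rfl
      rw [this, hleft]
      exact H275.rename_mem_Vw_w wα W (hf1 ⟨j, hj⟩))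
    (by
      intro j hj
      have h1 : j = Fin.natAdd c₁ ⟨(j : ℕ) - c₁, by have := j.2; omega⟩ := by
        apply Fin.ext
        simp only [Fin.val_natAdd]
        omega
      rw [h1]
      exact hf2 _)
    hf hind l (Fintype.card β - ρ) (Nat.sub_le _ _) hl (by rw [hv]; exact hgood)
    (by rw [hv]; exact hr) q L hq hlow
    (by rw [Nat.add_sub_cancel_left]; exact hbig)
  have hm : m ≤ ρ := by omega
  refine ⟨hm, fun i hi hri => ?_⟩
  refine ⟨le_antisymm hm ?_, comap_eq_of_rank (z i) f₁ f hleft (hf i hi) (hind i hi)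
    (hm.trans hri)⟩
  have h2 := H275.vert_rank_le (Nat.le_add_right c₁ m) (z i) f (by
    intro j hj b
    have : j = Fin.castAdd m ⟨j, hj⟩ := rfl
    rw [this, hleft]
    apply pderiv_eq_zero_of_notMem_vars
    intro h
    have h2 := vars_rename _ _ h
    simp at h2)
  have h3 : ρ ≤ c₁ + m - c₁ := hri.trans h2
  omega

end Vale.Agent.P054.T2.H958
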