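import Vale.Agent.P054.T2.H958.Dom
import Vale.Agent.P054.T2.H930.GermMap
import Vale.Agent.P054.T2.H307.Fam
import Vale.Agent.P054.T2.H580.Sys

set_option autoImplicit false
set_option linter.unusedSectionVars false

/-!
# P054 / T2, [DOM-GLUE], abstract form: for any system of the big family with [GOOD] and exact
vertical rank, the germ restricts to the germ of the base family.
-/

open MvPolynomial Module

namespace Vale.Agent.P054.T2.H958

open H930 H395
open H307 (van mem_van pts rst)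

section

variable {K : Type*} [Field K] [CharZero K] {α β : Type*} [Fintype α] [DecidableEq α]
  [Fintype β] [DecidableEq β] {ι : Type*}

/-- the space of the vertical gradients at `e` of the polynomials of `V` vanishing on `E₀` -/
noncomputable def vsp (z : ι → α ⊕ β → K) (E₀ : Finset ι)
    (V : Submodule K (MvPolynomial (α ⊕ β) K)) (e : ι) : Submodule K (β → K) :=
  (van z E₀ V).map (rst Sum.inr ∘ₗ H307.grad (z e))

theorem vmat_row {c : ℕ} (p : α ⊕ β → K) (F : Fin c → MvPolynomial (α ⊕ β) K) (i : Fin c) :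
    (vmat p F).row i = (rst Sum.inr ∘ₗ H307.grad p) (F i) := rfl

theorem rank_vmat_le (z : ι → α ⊕ β → K) (E₀ : Finset ι)
    (V : Submodule K (MvPolynomial (α ⊕ β) K)) (e : ι) {c : ℕ}
    (F : Fin c → MvPolynomial (α ⊕ β) K) (hF : ∀ i, F i ∈ van z E₀ V) :
    (vmat (z e) F).rank ≤ finrank K (vsp z E₀ V e) := by
  rw [Matrix.rank_eq_finrank_span_row]
  refine Submodule.finrank_mono ?_
  rw [Submodule.span_le]
  rintro _ ⟨i, rfl⟩
  rw [vmat_row]
  exact Submodule.mem_map_of_mem (hF i)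

theorem le_rank_vmat (z : ι → α ⊕ β → K) (E₀ : Finset ι)
    (V : Submodule K (MvPolynomial (α ⊕ β) K)) (e : ι) {c : ℕ}
    (F : Fin c → MvPolynomial (α ⊕ β) K) (h0 : ∀ i, eval (z e) (F i) = 0)
    (hgood : ∀ G ∈ van z E₀ V, G ∈ germ (z e) F) :
    finrank K (vsp z E₀ V e) ≤ (vmat (z e) F).rank := by
  rw [Matrix.rank_eq_finrank_span_row]
  refine Submodule.finrank_mono ?_
  rintro _ ⟨G, hG, rfl⟩
  have h1 := grad_mem_of_mem_germ h0 (hgood G hG)
  have h2 : Submodule.span K (Set.range (fun i => grad (z e) (F i))) ≤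
      (Submodule.span K (Set.range (vmat (z e) F).row)).comap (rst (K := K) Sum.inr) := by
    rw [Submodule.span_le]
    rintro _ ⟨i, rfl⟩
    exact Submodule.subset_span ⟨i, rfl⟩
  exact h2 h1

/-- **[DOM-GLUE], abstract.** -/
theorem dom_abs (E₀ E₁ A : Finset ι) (hE : E₁ ⊆ E₀) (hA : A ⊆ E₀)
    (z : ι → α ⊕ β → K) {c₁ cT : ℕ}
    (wα : α → ℕ) (hwα : ∀ i, 1 ≤ wα i) (W D : ℕ) (hW : 1 ≤ W) (hD : 1 ≤ D)
    (hwW : ∀ i, wα i ≤ W)
    (f₁ : Fin c₁ → MvPolynomial α K) (δ : ℕ → ℕ) (hδ : ∀ j < c₁, 1 ≤ δ j)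
    (hδW : ∀ j < c₁, δ j ≤ W * D)
    (hf1 : ∀ j : Fin c₁, f₁ j ∈ H580.Vw K wα (δ j))
    (hf1z : ∀ e ∈ E₀, ∀ j, eval (fun a => z e (Sum.inl a)) (f₁ j) = 0)
    (hf1i : ∀ e ∈ A, LinearIndependent K (fun j => grad (fun a => z e (Sum.inl a)) (f₁ j)))
    (Ft : Fin cT → MvPolynomial (α ⊕ β) K)
    (hFt : ∀ j, Ft j ∈ van z E₀ (H580.Vw K (Sum.elim wα (fun _ => W)) (W * D)))
    (hFti : ∀ e ∈ A, LinearIndependent K (fun j => grad (z e) (Ft j)))
    (ρ : ℕ) (hρ : ρ ≤ Fintype.card β)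
    (hgood : ∀ e ∈ A, ∀ F ∈ H580.Vw K (Sum.elim wα (fun _ => W)) ((ρ + 1) * (W * D)),
      (∀ x ∈ E₁, eval (z x) F = 0) → F ∈ germ (z e) Ft)
    (hr1 : ∀ e ∈ E₁,
      finrank K (vsp z E₀ (H580.Vw K (Sum.elim wα (fun _ => W)) (W * D)) e) ≤ ρ)
    (hr2 : ∀ e ∈ A,
      ρ ≤ finrank K (vsp z E₀ (H580.Vw K (Sum.elim wα (fun _ => W)) (W * D)) e))
    (q L : ℕ) (hq : 1 ≤ q)
    (hlow : ∀ A' ⊆ A, A.card ≤ Fintype.card β ^ (Fintype.card β - ρ) * A'.card →
      (∏ j ∈ Finset.range c₁, δ j) * (q * W) ^ (Fintype.card α - c₁)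
        ≤ L * ((∏ x, wα x) *
          H580.rkF (H580.Vw K wα) (pts (fun e => fun a => z e (Sum.inl a)) A') (q * W)))
    (hbig : 2 ^ (Fintype.card α + cT) * L *
      (Fintype.card β + 2 + cT) ^ (Fintype.card α + Fintype.card β) * D ^ cT ≤ q) :
    ∀ e ∈ A, cT = c₁ + ρ ∧
      (germ (z e) Ft).comap (rename (R := K) (Sum.inl : α → α ⊕ β)) =
        germ (fun a => z e (Sum.inl a)) f₁ := by
  classical
  set w : α ⊕ β → ℕ := Sum.elim wα (fun _ => W) with hw
  have hgood0 : ∀ e ∈ A, ∀ G ∈ van z E₀ (H580.Vw K w (W * D)), G ∈ germ (z e) Ft := by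
    intro e he G hG
    refine hgood e he G (H580.Vw_mono w ?_ hG.1) (fun x hx => hG.2 x (hE hx))
    exact Nat.le_mul_of_pos_left _ (Nat.succ_pos ρ)
  have hFt0 : ∀ e ∈ A, ∀ j, eval (z e) (Ft j) = 0 := fun e he j => (hFt j).2 e (hA he)
  have hren : ∀ j, rename (R := K) (Sum.inl : α → α ⊕ β) (f₁ j) ∈
      van z E₀ (H580.Vw K w (W * D)) := by
    intro j
    refine ⟨H580.Vw_mono w (hδW j j.2) (H275.rename_mem_Vw_w wα W (hf1 j)), fun e he => ?_⟩
    rw [eval_rename]
    exact hf1z e he j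
  have hrenI : ∀ e ∈ A, LinearIndependent K
      (fun j => H307.grad (z e) (rename (R := K) (Sum.inl : α → α ⊕ β) (f₁ j))) := by
    intro e he
    have h1 := hf1i e he
    rw [Fintype.linearIndependent_iff] at h1 ⊢
    intro g hg
    refine h1 g ?_
    funext a
    have h2 := congrFun hg (Sum.inl a)
    have h3 : ∀ j, H307.grad (z e) (rename (R := K) (Sum.inl : α → α ⊕ β) (f₁ j)) (Sum.inl a) =
        grad (fun a => z e (Sum.inl a)) (f₁ j) a := by
      intro j
      exact congrFun (grad_rename_inl (z e) (f₁ j)) (Sum.inl a)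
    simp only [Finset.sum_apply, Pi.smul_apply, h3, Pi.zero_apply] at h2 ⊢
    exact h2
  intro e₀ he₀
  have hc : c₁ ≤ cT := by
    have h1 := hrenI e₀ he₀
    have h2 : ∀ j, H307.grad (z e₀) (rename (R := K) (Sum.inl : α → α ⊕ β) (f₁ j)) ∈
        Submodule.span K (Set.range (fun i => grad (z e₀) (Ft i))) := fun j =>
      grad_mem_of_mem_germ (hFt0 e₀ he₀) (hgood0 e₀ he₀ _ (hren j))
    have h3 : finrank K (Submodule.span K (Set.range
        (fun j => H307.grad (z e₀) (rename (R := K) (Sum.inl : α → α ⊕ β) (f₁ j))))) = c₁ := by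
      rw [finrank_span_eq_card h1, Fintype.card_fin]
    have h4 : finrank K (Submodule.span K (Set.range (fun i => grad (z e₀) (Ft i)))) ≤ cT :=
      (finrank_range_le_card _).trans (by simp)
    have h5 := Submodule.finrank_mono (Submodule.span_le.2 (by
      rintro _ ⟨j, rfl⟩
      exact h2 j) : Submodule.span K (Set.range
        (fun j => H307.grad (z e₀) (rename (R := K) (Sum.inl : α → α ⊕ β) (f₁ j)))) ≤
        Submodule.span K (Set.range (fun i => grad (z e₀) (Ft i))))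
    omega
  obtain ⟨m, rfl⟩ := Nat.exists_eq_add_of_le hc
  -- extension of the base system
  obtain ⟨F, hF0, hF1, hFi⟩ := H580.exists_sys_ext (K := K) A (fun e => H307.grad (z e))
    (fun _ => van z E₀ (H580.Vw K w (W * D))) 1 Nat.one_pos (fun _ => c₁ + m)
    (fun _ _ _ _ => le_rfl)
    (by
      intro k hk e he
      have h1 : finrank K (Submodule.span K (Set.range (fun i => grad (z e) (Ft i)))) = c₁ + m := by
        rw [finrank_span_eq_card (hFti e he), Fintype.card_fin]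
      rw [← h1]
      refine Submodule.finrank_mono ?_
      rw [Submodule.span_le]
      rintro _ ⟨i, rfl⟩
      exact Submodule.mem_map_of_mem (hFt i))
    (fun j => rename (R := K) (Sum.inl : α → α ⊕ β) (f₁ j)) hrenI m le_rfl
  have hFv : ∀ j, F j ∈ van z E₀ (H580.Vw K w (W * D)) := by
    intro j
    refine Fin.addCases (fun i => ?_) (fun i => ?_) j
    · rw [hF0 i]; exact hren i
    · exact hF1 i
  have hFz : ∀ e ∈ A, ∀ j, eval (z e) (F j) = 0 := fun e he j => (hFv j).2 e (hA he)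
  have hger : ∀ e ∈ A, germ (z e) F = germ (z e) Ft := by
    intro e he
    exact germ_eq_of_le (hFz e he) (hFt0 e he) (hFi e he) (hFti e he)
      (fun j => hgood0 e he _ (hFv j))
  have hcN : c₁ ≤ Fintype.card α := by
    have h1 := (hf1i e₀ he₀).fintype_card_le_finrank
    rw [Fintype.card_fin, Module.finrank_fintype_fun_eq_card] at h1
    exact h1
  have key := dom (K := K) (E₁ : Set ι) A z hcN f₁ F hF0 δ hδ wα hwα W D hW hD hwW hf1
    (fun j => (hF1 j).1) hFz hFi (W * D) ρ hρ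
    (fun j b => H580.Vw_mono _ (Nat.sub_le _ _) (H580.pderiv_mem_Vw _ (hFv j).1 _))
    (by
      intro e he G hG hG0
      rw [hger e he]
      exact hgood e he G hG hG0)
    (fun x hx => (rank_vmat_le z E₀ _ x F hFv).trans (hr1 x hx))
    q L hq
    (by
      intro A' hA' hcard
      refine (hlow A' hA' hcard).trans (Nat.mul_le_mul_left _ (Nat.mul_le_mul_left _ ?_))
      have h1 := H275.rkF_le_hilb_w A' z F (fun i hi => hFz i (hA' hi)) wα
        (fun i => by have := hwα i; omega) (q * W)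
      refine le_trans (le_of_eq ?_) h1
      congr 1
      ext y
      rw [H307.mem_pts, Finset.mem_image])
    (by
      refine le_trans ?_ hbig
      refine Nat.mul_le_mul (Nat.mul_le_mul_left _ (Nat.pow_le_pow_left (by omega) _))
        (Nat.pow_le_pow_right hD (by omega)))
  obtain ⟨-, h2⟩ := key
  have h3 : ρ ≤ (vmat (z e₀) F).rank :=
    (hr2 e₀ he₀).trans (le_rank_vmat z E₀ _ e₀ F (hFz e₀ he₀) (fun G hG => by
      rw [hger e₀ he₀]; exact hgood0 e₀ he₀ G hG))
  obtain ⟨h4, h5⟩ := h2 e₀ he₀ h3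
  rw [hger e₀ he₀] at h5
  exact ⟨by rw [h4], h5⟩

end

end Vale.Agent.P054.T2.H958
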