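import Vale.Agent.P054.T2.H958.DomAbs
import Vale.Agent.P054.T2.H580.Hat
import Vale.Agent.P054.T2.H930.TanEdge

set_option autoImplicit false
set_option linter.unusedSectionVars false

/-!
# P054 / T2, [DOM-GLUE]: transport along an equivalence of the variables, numbers of the hats
-/

open MvPolynomial Module

namespace Vale.Agent.P054.T2.H958

open H930 H395
open H307 (van mem_van pts rst grL)
open H580 (Vw rkF)

section equiv

variable {K : Type*} [Field K] {σ τ : Type*} [Fintype σ] [DecidableEq σ] [Fintype τ]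
  [DecidableEq τ]

theorem rename_equiv_mem_Vw (ε : σ ≃ τ) (w : τ → ℕ) (n : ℕ) (G : MvPolynomial σ K) :
    rename ε G ∈ Vw K w n ↔ G ∈ Vw K (w ∘ ε) n := by
  constructor
  · intro h
    have h1 := H580.rename_mem_Vw_of_weight (K := K) (w ∘ ε) w ε.symm
      (fun i => by simp) h
    rw [rename_rename] at h1
    simpa using h1
  · intro h
    exact H580.rename_mem_Vw_of_weight (K := K) w (w ∘ ε) ε (fun _ => rfl) h

theorem grad_rename_equiv (ε : σ ≃ τ) (p : τ → K) (G : MvPolynomial σ K) (a : σ) :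
    grad p (rename ε G) (ε a) = grad (p ∘ ε) G a := by
  change eval p (pderiv (ε a) (rename ε G)) = eval (p ∘ ε) (pderiv a G)
  rw [pderiv_rename ε.injective, eval_rename]

theorem germ_equiv (ε : σ ≃ τ) (p : τ → K) {c : ℕ} (F : Fin c → MvPolynomial τ K) :
    germ (p ∘ ε) (fun i => rename ε.symm (F i)) = (germ p F).comap (rename (R := K) ε) := by
  refine le_antisymm ?_ ?_
  · refine germ_le_comap_rename ε p (fun i => ?_)
    rw [rename_rename]
    have : (ε : σ → τ) ∘ ε.symm = id := by funext x; simp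
    rw [this, rename_id, AlgHom.id_apply]
    exact f_mem_germ p F i
  · intro G hG
    rw [Ideal.mem_comap] at hG
    have h1 : germ p F ≤ (germ (p ∘ ε) (fun i => rename ε.symm (F i))).comap
        (rename (R := K) ε.symm) := by
      have h2 := germ_le_comap_rename (F := F) (F' := fun i => rename ε.symm (F i))
        (ε.symm : τ → σ) (p ∘ ε) (fun i => f_mem_germ _ _ i)
      have h3 : (p ∘ ε) ∘ ε.symm = p := by funext x; simp
      rwa [h3] at h2
    have h2 := h1 hG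
    rw [Ideal.mem_comap, rename_rename] at h2
    have : (ε.symm : τ → σ) ∘ ε = id := by funext x; simp
    rw [this, rename_id, AlgHom.id_apply] at h2
    exact h2

theorem ind_rename_equiv (ε : σ ≃ τ) (p : τ → K) {c : ℕ} (F : Fin c → MvPolynomial τ K)
    (h : LinearIndependent K (fun i => grad p (F i))) :
    LinearIndependent K (fun i => grad (p ∘ ε) (rename ε.symm (F i))) := by
  rw [Fintype.linearIndependent_iff] at h ⊢
  intro g hg
  refine h g ?_
  funext x
  have h1 := congrFun hg (ε.symm x)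
  have h2 : ∀ i, grad (p ∘ ε) (rename ε.symm (F i)) (ε.symm x) = grad p (F i) x := by
    intro i
    rw [← grad_rename_equiv ε p, rename_rename]
    have : (ε : σ → τ) ∘ ε.symm = id := by funext x; simp
    rw [this, rename_id, AlgHom.id_apply, Equiv.apply_symm_apply]
  simp only [Finset.sum_apply, Pi.smul_apply, h2, Pi.zero_apply] at h1 ⊢
  exact h1

end equiv

section

variable {K : Type*} [Field K] [CharZero K] {α β τ : Type*} [Fintype α] [DecidableEq α]
  [Fintype β] [DecidableEq β] [Fintype τ] [DecidableEq τ] {ι : Type*}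

theorem van_equiv (ε : α ⊕ β ≃ τ) (x : ι → τ → K) (E₀ : Finset ι) (w : τ → ℕ) (n : ℕ)
    (G : MvPolynomial (α ⊕ β) K) :
    rename ε G ∈ van x E₀ (Vw K w n) ↔
      G ∈ van (fun e => x e ∘ ε) E₀ (Vw K (w ∘ ε) n) := by
  rw [mem_van, mem_van, rename_equiv_mem_Vw]
  refine and_congr_right fun _ => ?_
  constructor
  · intro h e he
    rw [← eval_rename]; exact h e he
  · intro h e he
    rw [eval_rename]; exact h e he

theorem vsp_equiv (ε : α ⊕ β ≃ τ) (x : ι → τ → K) (E₀ : Finset ι) (w : τ → ℕ) (n : ℕ) (e : ι) :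
    vsp (fun e => x e ∘ ε) E₀ (Vw K (w ∘ ε) n) e =
      (van x E₀ (Vw K w n)).map (rst (ε ∘ Sum.inr) ∘ₗ H307.grad (x e)) := by
  ext y
  constructor
  · rintro ⟨G, hG, rfl⟩
    refine ⟨rename ε G, (van_equiv ε x E₀ w n G).2 hG, ?_⟩
    funext b
    exact grad_rename_equiv ε (x e) G (Sum.inr b)
  · rintro ⟨G, hG, rfl⟩
    have h1 : rename ε (rename ε.symm G) = G := by
      rw [rename_rename]
      have : (ε : α ⊕ β → τ) ∘ ε.symm = id := by funext x; simp
      rw [this, rename_id, AlgHom.id_apply]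
    refine ⟨rename ε.symm G, (van_equiv ε x E₀ w n _).1 (by rw [h1]; exact hG), ?_⟩
    funext b
    have h2 := grad_rename_equiv ε (x e) (rename ε.symm G) (Sum.inr b)
    rw [h1] at h2
    exact h2.symm

/-- **[DOM-GLUE] with an equivalence of the variables.** -/
theorem dom_equiv (ε : α ⊕ β ≃ τ) (E₀ E₁ A : Finset ι) (hE : E₁ ⊆ E₀) (hA : A ⊆ E₀)
    (x : ι → τ → K) {c₁ cT : ℕ} (w : τ → ℕ)
    (wα : α → ℕ) (hwα : ∀ i, 1 ≤ wα i) (W D : ℕ) (hW : 1 ≤ W) (hD : 1 ≤ D)
    (hwW : ∀ i, wα i ≤ W)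
    (hw1 : ∀ a, w (ε (Sum.inl a)) = wα a) (hw2 : ∀ b, w (ε (Sum.inr b)) = W)
    (f₁ : Fin c₁ → MvPolynomial α K) (δ : ℕ → ℕ) (hδ : ∀ j < c₁, 1 ≤ δ j)
    (hδW : ∀ j < c₁, δ j ≤ W * D)
    (hf1 : ∀ j : Fin c₁, f₁ j ∈ Vw K wα (δ j))
    (hf1z : ∀ e ∈ E₀, ∀ j, eval (x e ∘ ε ∘ Sum.inl) (f₁ j) = 0)
    (hf1i : ∀ e ∈ A, LinearIndependent K (fun j => grad (x e ∘ ε ∘ Sum.inl) (f₁ j)))
    (Ft : Fin cT → MvPolynomial τ K)
    (hFt : ∀ j, Ft j ∈ van x E₀ (Vw K w (W * D)))
    (hFti : ∀ e ∈ A, LinearIndependent K (fun j => grad (x e) (Ft j)))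
    (ρ : ℕ) (hρ : ρ ≤ Fintype.card β)
    (hgood : ∀ e ∈ A, ∀ F ∈ Vw K w ((ρ + 1) * (W * D)),
      (∀ e' ∈ E₁, eval (x e') F = 0) → F ∈ germ (x e) Ft)
    (hr1 : ∀ e ∈ E₁, grL x E₀ (Vw K w (W * D)) (rst (ε ∘ Sum.inr)) (x e) ≤ ρ)
    (hr2 : ∀ e ∈ A, ρ ≤ grL x E₀ (Vw K w (W * D)) (rst (ε ∘ Sum.inr)) (x e))
    (q L : ℕ) (hq : 1 ≤ q)
    (hlow : ∀ A' ⊆ A, A.card ≤ Fintype.card β ^ (Fintype.card β - ρ) * A'.card →
      (∏ j ∈ Finset.range c₁, δ j) * (q * W) ^ (Fintype.card α - c₁)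
        ≤ L * ((∏ x, wα x) *
          rkF (Vw K wα) (pts (fun e => x e ∘ ε ∘ Sum.inl) A') (q * W)))
    (hbig : 2 ^ (Fintype.card α + cT) * L *
      (Fintype.card β + 2 + cT) ^ (Fintype.card α + Fintype.card β) * D ^ cT ≤ q) :
    ∀ e ∈ A, cT = c₁ + ρ ∧
      (germ (x e) Ft).comap (rename (R := K) (ε ∘ Sum.inl : α → τ)) =
        germ (x e ∘ ε ∘ Sum.inl) f₁ := by
  have hww : w ∘ ε = Sum.elim wα (fun _ => W) := by
    funext y
    rcases y with y | y
    · exact hw1 y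
    · exact hw2 y
  have hre : ∀ G : MvPolynomial τ K, rename ε (rename ε.symm G) = G := by
    intro G
    rw [rename_rename]
    have : (ε : α ⊕ β → τ) ∘ ε.symm = id := by funext x; simp
    rw [this, rename_id, AlgHom.id_apply]
  have key := dom_abs E₀ E₁ A hE hA (fun e => x e ∘ ε) wα hwα W D hW hD hwW f₁ δ hδ hδW hf1
    hf1z hf1i (fun j => rename ε.symm (Ft j))
    (by
      intro j
      rw [← hww]
      exact (van_equiv ε x E₀ w _ _).1 (by rw [hre]; exact hFt j))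
    (fun e he => ind_rename_equiv ε (x e) Ft (hFti e he)) ρ hρ
    (by
      intro e he F hF hF0
      rw [← hww] at hF
      rw [germ_equiv ε (x e) Ft, Ideal.mem_comap]
      refine hgood e he _ ((rename_equiv_mem_Vw ε w _ F).2 hF) ?_
      intro e' he'
      rw [eval_rename]
      exact hF0 e' he')
    (by
      intro e he
      rw [← hww, vsp_equiv]
      exact hr1 e he)
    (by
      intro e he
      rw [← hww, vsp_equiv]
      exact hr2 e he)
    q L hq hlow hbig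
  intro e he
  obtain ⟨h1, h2⟩ := key e he
  refine ⟨h1, ?_⟩
  rw [germ_equiv ε (x e) Ft] at h2
  rw [show (x e ∘ ε ∘ Sum.inl) = (fun a => (x e ∘ ε) (Sum.inl a)) from rfl, ← h2]
  ext G
  rw [Ideal.mem_comap, Ideal.mem_comap, Ideal.mem_comap, rename_rename]

end

end Vale.Agent.P054.T2.H958
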