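import Vale.Agent.P054.T2.H958.DomNum
import Vale.Agent.P054.T2.H958.DomEquiv

set_option autoImplicit false
set_option linter.unusedSectionVars false

/-!
# P054 / T2, [DOM-GLUE] over a uniform set, general blocks
-/

open MvPolynomial Module Finset

namespace Vale.Agent.P054.T2.H958

open H930 (germ)
open H307 (van mem_van pts core core_subset core_anti IsUnif IsFam fib fib_unit rst grL)
open H580 (Vw rkF hilbF wh kap Par)

section

variable {ι κ K : Type*} [Field K] [CharZero K] [Infinite K]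
variable {c : κ → Finset ι → ι → ℕ} {J : Finset κ} {β : ℕ} {E' : Finset ι} {v : κ → ℕ}
variable {γ ρ η τ : Type*} [Fintype γ] [Fintype ρ] [Fintype η] [Fintype τ] [DecidableEq γ]
  [DecidableEq ρ] [DecidableEq η] [DecidableEq τ]

/-- **[DOM-GLUE] over a uniform set.**  `ε : (γ ⊕ ρ) ⊕ η ≃ τ`: the big family has the variables
`τ` (weights `1` on `γ`, `b ^ k₀` on `ρ` and `η`), the base family is the hat on `γ ⊕ ρ`. -/
theorem dom_hat {N k C₁ L K₀ q : ℕ} (hP : Par N k β C₁ L K₀ q J.card)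
    (hU : IsUnif c J β E' v)
    (hmono : ∀ j ∈ J, ∀ A B : Finset ι, A ⊆ B → B ⊆ E' → ∀ e ∈ A, c j B e ≤ c j A e)
    (ε : (γ ⊕ ρ) ⊕ η ≃ τ) (hN : Fintype.card γ + Fintype.card ρ + Fintype.card η ≤ N)
    (x : ι → τ → K) (w : τ → ℕ) (k₀ i₀ i₁ : ℕ) (hk₀ : k₀ ≤ K₀) (hi₁ : i₁ ≤ K₀)
    (hw1 : ∀ g, w (ε (Sum.inl (Sum.inl g))) = 1)
    (hw2 : ∀ r, w (ε (Sum.inl (Sum.inr r))) = (β ^ L) ^ k₀)
    (hw3 : ∀ s, w (ε (Sum.inr s)) = (β ^ L) ^ k₀)
    {idxF idxH : ℕ → κ}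
    (hF : IsFam c J idxF k₀ (fun e => (x e ∘ ε ∘ Sum.inl) ∘ Sum.inl) (fun _ => ())
      (restrictTotalDegree γ K) 1 (β ^ L))
    (hH : IsFam c J idxH i₁ (fun e => x e ∘ ε ∘ Sum.inl) (fun _ => ())
      (Vw K (wh γ ρ ((β ^ L) ^ k₀))) ((β ^ L) ^ k₀) (β ^ L))
    {jS : κ} (hjS : jS ∈ J)
    (hS : ∀ A e, c jS A e =
      grL x A (Vw K w ((β ^ L) ^ k₀ * (β ^ L) ^ i₀)) (rst (ε ∘ Sum.inr)) (x e))
    (hi : i₀ ≤ i₁)
    (hconst : ∀ i, i₀ ≤ i → i < i₁ → v (idxH i) = v (idxH i₀))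
    (hwin : N * i₀ + 2 * (N * N) + 3 ≤ i₁)
    {c₀ m : ℕ} (hc : v (idxF k₀) = c₀) (hm : v (idxH i₀) = c₀ + m)
    (hge : ∀ i ≤ i₀, c₀ ≤ v (idxH i))
    (fH : Fin (c₀ + m) → MvPolynomial (γ ⊕ ρ) K)
    (hd : ∀ j : Fin c₀, fH (Fin.castAdd m j) ∈ van (fun e => x e ∘ ε ∘ Sum.inl) E'
      (Vw K (wh γ ρ ((β ^ L) ^ k₀)) ((β ^ L) ^ kap (k₀ + 1) (fun j => v (idxF j)) (j : ℕ))))
    (hd' : ∀ j : Fin m, fH (Fin.natAdd c₀ j) ∈ van (fun e => x e ∘ ε ∘ Sum.inl) E'
      (Vw K (wh γ ρ ((β ^ L) ^ k₀))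
        ((β ^ L) ^ (k₀ + kap (i₀ + 1) (fun j => v (idxH j)) (c₀ + (j : ℕ))))))
    (hind : ∀ e ∈ E', LinearIndependent K
      (fun j => H930.grad (x e ∘ ε ∘ Sum.inl) (fH j)))
    {cT : ℕ} (Ft : Fin cT → MvPolynomial τ K)
    (hFt : ∀ j, Ft j ∈ van x E' (Vw K w ((β ^ L) ^ k₀ * (β ^ L) ^ i₀)))
    {A : Finset ι} (hA : A ⊆ E')
    (hFti : ∀ e ∈ A, LinearIndependent K (fun j => H930.grad (x e) (Ft j)))
    {r : ℕ} (hr : E'.card ≤ r * A.card)
    (hrq : 2 * (r * Fintype.card η ^ Fintype.card η + 1) ≤ q)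
    (hgood : ∀ e ∈ A, ∀ F ∈ Vw K w ((β ^ L) ^ (k₀ + i₀ + 1)),
      (∀ e' ∈ E', c jS E' e' = v jS → eval (x e') F = 0) → F ∈ germ (x e) Ft) :
    ∀ e ∈ A, cT = c₀ + m + v jS ∧
      (germ (x e) Ft).comap (rename (R := K) (ε ∘ Sum.inl : γ ⊕ ρ → τ)) =
        germ (x e ∘ ε ∘ Sum.inl) fH := by
  classical
  rcases A.eq_empty_or_nonempty with rfl | hAne
  · intro e he; exact absurd he (Finset.notMem_empty e)
  obtain ⟨e₀, he₀⟩ := hAne
  have hAne : A.Nonempty := ⟨e₀, he₀⟩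
  have hE : E'.Nonempty := ⟨e₀, hA he₀⟩
  have hβ1 := hP.beta_gt_one
  have hb1 := hP.b_gt_one
  have hβb : β ≤ β ^ L := Nat.le_self_pow hP.hL.ne' β
  have hNβ : N + 3 ≤ β := by
    have h1 := hP.hβ
    have h2 : 1 * (N + 2) ≤ k * (N + 2) := Nat.mul_le_mul_right _ hP.hk
    omega
  have hcN : (2 * (N + 2)) ^ N ≤ β := by
    refine le_trans ?_ hP.hconst
    exact Nat.le_mul_of_pos_right _ (Nat.pow_pos (hP.const_pos N))
  set b := β ^ L with hb
  have hmonoF : ∀ k l : ℕ, k ≤ l → l ≤ k₀ → v (idxF k) ≤ v (idxF l) := fun k l hkl hl =>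
    hU.fam_mono hE hβ1 (H580.isFilt_total (k := K) (σ := γ)).mono (by omega) hF hkl hl
  have hmonoH : ∀ k l : ℕ, k ≤ l → l ≤ i₀ → v (idxH k) ≤ v (idxH l) := fun k l hkl hl =>
    hU.fam_mono hE hβ1 (H580.Vw_mono _) (by omega) hH hkl (hl.trans hi)
  have hcγ : c₀ ≤ Fintype.card γ := by
    rw [← hc]; exact H580.fam_le_card hU hE hF le_rfl
  have hmN : c₀ + m ≤ Fintype.card γ + Fintype.card ρ := by
    rw [← hm, ← Fintype.card_sum]; exact H580.fam_le_card hU hE hH hi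
  have hcT : cT ≤ N := by
    have h1 := (hFti e₀ he₀).fintype_card_le_finrank
    rw [Fintype.card_fin, Module.finrank_fintype_fun_eq_card] at h1
    have h2 : Fintype.card τ = Fintype.card γ + Fintype.card ρ + Fintype.card η := by
      rw [← Fintype.card_congr ε, Fintype.card_sum, Fintype.card_sum]
    omega
  have hρle : v jS ≤ Fintype.card η := by
    have h1 := hU.le jS hjS E' (Finset.Subset.refl _) e₀ (hA he₀)
    rw [hS] at h1
    refine h1.trans ?_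
    unfold grL
    refine (Submodule.finrank_le _).trans ?_
    rw [Module.finrank_fintype_fun_eq_card]
  have hlev : (v jS + 1) * (b ^ k₀ * b ^ i₀) ≤ b ^ (k₀ + i₀ + 1) := by
    calc (v jS + 1) * (b ^ k₀ * b ^ i₀) ≤ b * (b ^ k₀ * b ^ i₀) :=
          Nat.mul_le_mul_right _ (by omega)
      _ = b ^ (k₀ + i₀ + 1) := by ring
  refine dom_equiv ε E' (E'.filter fun e => c jS E' e = v jS) A (Finset.filter_subset _ _) hA x w
    (wh γ ρ (b ^ k₀)) (by
      rintro (i | i)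
      · exact le_rfl
      · exact Nat.one_le_pow _ _ (by omega))
    (b ^ k₀) (b ^ i₀) (Nat.one_le_pow _ _ (by omega)) (Nat.one_le_pow _ _ (by omega))
    (by
      rintro (i | i)
      · exact Nat.one_le_pow _ _ (by omega)
      · exact le_rfl)
    (by
      rintro (i | i)
      · exact hw1 i
      · exact hw2 i)
    hw3 fH (dlev b k₀ i₀ c₀ (fun j => v (idxF j)) (fun j => v (idxH j)))
    (fun j _ => dlev_pos (by omega) _ _ _ _ _ _)
    (fun j hj => dlev_le (by omega) hj hc hm hmonoF hmonoH)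
    ?_ ?_ (fun e he => hind e (hA he)) Ft hFt hFti (v jS) hρle ?_ ?_ ?_
    (b ^ i₁) (b ^ (2 * (N * N) + 1)) (Nat.one_le_pow _ _ (by omega)) ?_ ?_
  · intro j
    refine Fin.addCases (fun j => ?_) (fun j => ?_) j
    · have h1 := (hd j).1
      have h2 : dlev b k₀ i₀ c₀ (fun j => v (idxF j)) (fun j => v (idxH j))
          ((Fin.castAdd m j : Fin (c₀ + m)) : ℕ) =
          b ^ kap (k₀ + 1) (fun j => v (idxF j)) (j : ℕ) := by
        unfold dlev
        rw [Fin.val_castAdd, if_pos j.2]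
      rw [h2]; exact h1
    · have h1 := (hd' j).1
      have h2 : dlev b k₀ i₀ c₀ (fun j => v (idxF j)) (fun j => v (idxH j))
          ((Fin.natAdd c₀ j : Fin (c₀ + m)) : ℕ) =
          b ^ (k₀ + kap (i₀ + 1) (fun j => v (idxH j)) (c₀ + (j : ℕ))) := by
        unfold dlev
        rw [Fin.val_natAdd, if_neg (by omega)]
      rw [h2]; exact h1
  · intro e he j
    refine Fin.addCases (fun j => ?_) (fun j => ?_) j
    · exact (hd j).2 e he
    · exact (hd' j).2 e he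
  · intro e he F hF hF0
    refine hgood e he F (H580.Vw_mono _ hlev hF) (fun e' he' hce => ?_)
    exact hF0 e' (Finset.mem_filter.2 ⟨he', hce⟩)
  · intro e he
    obtain ⟨h1, h2⟩ := Finset.mem_filter.1 he
    rw [hS] at h2
    exact h2.le
  · intro e he
    have h1 := hU.le jS hjS E' (Finset.Subset.refl _) e (hA he)
    rwa [hS] at h1
  · -- lower bound
    intro A' hA' hcard
    have hA'c : 0 < A'.card := by
      rcases Nat.eq_zero_or_pos A'.card with h0 | h0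
      · rw [h0, mul_zero] at hcard
        have := hAne.card_pos
        omega
      · exact h0
    have hpow : Fintype.card η ^ (Fintype.card η - v jS) ≤ Fintype.card η ^ Fintype.card η := by
      rcases Nat.eq_zero_or_pos (Fintype.card η) with h0 | h0
      · rw [h0]; simp
      · exact Nat.pow_le_pow_right h0 (Nat.sub_le _ _)
    have hd1 : E'.card < (r * Fintype.card η ^ Fintype.card η + 1) * A'.card := by
      calc E'.card ≤ r * A.card := hr
        _ ≤ r * (Fintype.card η ^ Fintype.card η * A'.card) :=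
            Nat.mul_le_mul_left _ (hcard.trans (Nat.mul_le_mul_right _ hpow))
        _ = r * Fintype.card η ^ Fintype.card η * A'.card := by ring
        _ < (r * Fintype.card η ^ Fintype.card η + 1) * A'.card :=
            Nat.mul_lt_mul_of_pos_right (Nat.lt_succ_self _) hA'c
    have h1 := hat_lower_dense hP hU hmono (by omega : Fintype.card γ + Fintype.card ρ ≤ N)
      (fun e => x e ∘ ε ∘ Sum.inl) k₀ i₁ hk₀ hi₁ hF hH (hA'.trans hA) hrq hd1
    have h2 := hat_exp b k₀ i₀ i₁ hi (fun j => v (idxF j)) (fun j => v (idxH j))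
      (Fintype.card γ) (Fintype.card ρ) hmonoF hmonoH hconst hc hm hge hcγ hmN
    have h3 : ∏ i, wh γ ρ (b ^ k₀) i = b ^ (k₀ * Fintype.card ρ) := by
      rw [Fintype.prod_sum_type]
      simp [wh, Finset.prod_const, Finset.card_univ, pow_mul]
    have h4 : b ^ i₁ * b ^ k₀ = b ^ (k₀ + i₁) := by rw [pow_add]; ring
    rw [Fintype.card_sum, h2, h3, h4, pow_add b (k₀ * Fintype.card ρ)]
    calc b ^ (k₀ * Fintype.card ρ) *
          b ^ (∑ k ∈ range k₀, (Fintype.card γ - v (idxF k)) +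
            ∑ i ∈ range i₁, (Fintype.card γ + Fintype.card ρ - v (idxH i)))
        ≤ b ^ (k₀ * Fintype.card ρ) * (b ^ (2 * (N * N) + 1) *
            rkF (Vw K (wh γ ρ (b ^ k₀))) (pts (fun e => x e ∘ ε ∘ Sum.inl) A')
              (b ^ (k₀ + i₁))) := Nat.mul_le_mul_left _ h1
      _ = _ := by ring
  · -- numbers
    have e1 : 2 ^ (Fintype.card (γ ⊕ ρ) + cT) ≤ b := by
      calc 2 ^ (Fintype.card (γ ⊕ ρ) + cT) ≤ 2 ^ (2 * N) :=
            Nat.pow_le_pow_right (by norm_num) (by rw [Fintype.card_sum]; omega)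
        _ = 4 ^ N := by rw [pow_mul]; norm_num
        _ ≤ (2 * (N + 2)) ^ N := Nat.pow_le_pow_left (by omega) _
        _ ≤ b := hcN.trans hβb
    have e2 : (Fintype.card η + 2 + cT) ^ (Fintype.card (γ ⊕ ρ) + Fintype.card η) ≤ b := by
      calc (Fintype.card η + 2 + cT) ^ (Fintype.card (γ ⊕ ρ) + Fintype.card η)
          ≤ (2 * (N + 2)) ^ (Fintype.card (γ ⊕ ρ) + Fintype.card η) :=
            Nat.pow_le_pow_left (by omega) _
        _ ≤ (2 * (N + 2)) ^ N :=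
            Nat.pow_le_pow_right (by omega) (by rw [Fintype.card_sum]; omega)
        _ ≤ b := hcN.trans hβb
    have e3 : (b ^ i₀) ^ cT ≤ b ^ (N * i₀) := by
      rw [← pow_mul]
      refine Nat.pow_le_pow_right (by omega) ?_
      rw [mul_comm]
      exact Nat.mul_le_mul_right _ hcT
    calc 2 ^ (Fintype.card (γ ⊕ ρ) + cT) * b ^ (2 * (N * N) + 1) *
          (Fintype.card η + 2 + cT) ^ (Fintype.card (γ ⊕ ρ) + Fintype.card η) * (b ^ i₀) ^ cT
        ≤ b * b ^ (2 * (N * N) + 1) * b * b ^ (N * i₀) :=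
          Nat.mul_le_mul (Nat.mul_le_mul (Nat.mul_le_mul_right _ e1) e2) e3
      _ = b ^ (N * i₀ + 2 * (N * N) + 3) := by ring
      _ ≤ b ^ i₁ := Nat.pow_le_pow_right (by omega) hwin

end

end Vale.Agent.P054.T2.H958
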