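import Vale.Agent.P054.T2.H580.Uni
import Vale.Agent.P054.T2.H307.Fam

set_option autoImplicit false
set_option linter.unusedSectionVars false

/-!
# P054 / T2, [DOM-GLUE]: numbers of the hats (unit fibre, dense subsets)
-/

open MvPolynomial Module Finset

namespace Vale.Agent.P054.T2.H958

open H307 (pts core core_subset core_anti IsUnif IsFam fib fib_unit)
open H580 (Vw rkF hilbF wh kap Par)

/-- the levels of a hat system: the first `c₀` equations come from the edges -/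
def dlev (b k₀ i₀ c₀ : ℕ) (v v' : ℕ → ℕ) (j : ℕ) : ℕ :=
  if j < c₀ then b ^ kap (k₀ + 1) v j else b ^ (k₀ + kap (i₀ + 1) v' j)

theorem dlev_pos {b : ℕ} (hb : 1 ≤ b) (k₀ i₀ c₀ : ℕ) (v v' : ℕ → ℕ) (j : ℕ) :
    1 ≤ dlev b k₀ i₀ c₀ v v' j := by
  unfold dlev
  split_ifs
  · exact Nat.one_le_pow _ _ hb
  · exact Nat.one_le_pow _ _ hb

theorem kap_le_sub {K' : ℕ} {v : ℕ → ℕ} {j : ℕ} (hj : j < v K')
    (hv : ∀ k l : ℕ, k ≤ l → l ≤ K' → v k ≤ v l) : kap (K' + 1) v j ≤ K' :=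
  H580.kap_le_of_lt (K' + 1) v (fun k l hkl hl => hv k l hkl (by omega)) j K' hj

theorem dlev_le {b : ℕ} (hb : 1 ≤ b) {k₀ i₀ c₀ c₁ : ℕ} {v v' : ℕ → ℕ} {j : ℕ}
    (hj : j < c₁) (hc0 : v k₀ = c₀) (hc1 : v' i₀ = c₁)
    (hv : ∀ k l : ℕ, k ≤ l → l ≤ k₀ → v k ≤ v l)
    (hv' : ∀ k l : ℕ, k ≤ l → l ≤ i₀ → v' k ≤ v' l) :
    dlev b k₀ i₀ c₀ v v' j ≤ b ^ k₀ * b ^ i₀ := by
  rw [← pow_add]
  unfold dlev
  split_ifs with h
  · refine Nat.pow_le_pow_right hb ?_
    have := kap_le_sub (v := v) (K' := k₀) (j := j) (by omega) hv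
    omega
  · refine Nat.pow_le_pow_right hb ?_
    have := kap_le_sub (v := v') (K' := i₀) (j := j) (by omega) hv'
    omega

/-- **the exponents of a hat system** -/
theorem hat_exp (b : ℕ) (k₀ i₀ i₁ : ℕ) (hi : i₀ ≤ i₁) (v v' : ℕ → ℕ) (G R : ℕ)
    (hv : ∀ k l : ℕ, k ≤ l → l ≤ k₀ → v k ≤ v l)
    (hv' : ∀ k l : ℕ, k ≤ l → l ≤ i₀ → v' k ≤ v' l)
    (hconst : ∀ i, i₀ ≤ i → i < i₁ → v' i = v' i₀)
    {c m : ℕ} (hc : v k₀ = c) (hm : v' i₀ = c + m) (hge : ∀ i ≤ i₀, c ≤ v' i)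
    (hcγ : c ≤ G) (hmN : c + m ≤ G + R) :
    (∏ j ∈ range (c + m), dlev b k₀ i₀ c v v' j) * (b ^ i₁ * b ^ k₀) ^ (G + R - (c + m)) =
      b ^ (k₀ * R + (∑ k ∈ range k₀, (G - v k) + ∑ i ∈ range i₁, (G + R - v' i))) := by
  have s1 : (∑ j ∈ range c, kap (k₀ + 1) v j) + k₀ * (G - c) =
      ∑ k ∈ range k₀, (G - v k) := by
    have := H580.sum_kap_window G (k₀ + 1) k₀ v (le_refl _)
      (fun k l hkl hl => hv k l hkl (by omega)) (by simpa [hc] using hcγ)
      (fun k h1 h2 => by simp only [Nat.add_sub_cancel] at h1; omega)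
    simpa [hc] using this
  have s2 : (∑ j ∈ range m, kap (i₀ + 1) v' (c + j)) + i₁ * (G + R - (c + m)) =
      ∑ i ∈ range i₁, (G + R - v' i) := by
    have h3 := H580.sum_kap_window (G + R) (i₀ + 1) i₁ v' (by omega)
      (fun k l hkl hl => hv' k l hkl (by omega)) (by simpa [hm] using hmN)
      (fun k h1 h2 => by simpa using hconst k (by simpa using h1) h2)
    simp only [Nat.add_sub_cancel, hm] at h3
    rw [Finset.sum_range_add] at h3
    have h4 : ∑ j ∈ range c, kap (i₀ + 1) v' j = 0 := by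
      refine Finset.sum_eq_zero fun j hj => ?_
      refine H580.kap_eq_zero _ _ _ fun k hk => ?_
      have h5 := hge k (by omega)
      have h6 := Finset.mem_range.1 hj
      omega
    rw [h4, zero_add] at h3
    exact h3
  have e1 : ∏ j ∈ range (c + m), dlev b k₀ i₀ c v v' j =
      b ^ ((∑ j ∈ range c, kap (k₀ + 1) v j) +
        ∑ j ∈ range m, (k₀ + kap (i₀ + 1) v' (c + j))) := by
    rw [Finset.prod_range_add, pow_add, ← Finset.prod_pow_eq_pow_sum,
      ← Finset.prod_pow_eq_pow_sum]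
    congr 1
    · refine Finset.prod_congr rfl fun j hj => ?_
      unfold dlev
      rw [if_pos (Finset.mem_range.1 hj)]
    · refine Finset.prod_congr rfl fun j hj => ?_
      unfold dlev
      rw [if_neg (by omega)]
  rw [e1, ← pow_add, ← pow_mul, ← pow_add]
  congr 1
  rw [Finset.sum_add_distrib, Finset.sum_const, card_range, smul_eq_mul, ← s1, ← s2]
  obtain ⟨g, hg⟩ := Nat.exists_eq_add_of_le hcγ
  obtain ⟨t, ht⟩ := Nat.exists_eq_add_of_le hmN
  have h1 : G + R - (c + m) = t := by omega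
  have h2 : G - c = g := by omega
  have h3 : m + t = g + R := by omega
  rw [h1, h2]
  have h4 : k₀ * (m + t) = k₀ * (g + R) := by rw [h3]
  nlinarith [h4]

section lower

variable {ι κ K : Type*} [Field K] [CharZero K] [Infinite K]
variable {c : κ → Finset ι → ι → ℕ} {J : Finset κ} {β : ℕ} {E' : Finset ι} {v : κ → ℕ}
variable {γ ρ : Type*} [Fintype γ] [Fintype ρ] [DecidableEq γ] [DecidableEq ρ]

/-- **lower bound of the hats for dense sets**, unit fibre -/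
theorem hat_lower_dense {N k C₁ L K₀ q : ℕ} (hP : Par N k β C₁ L K₀ q J.card)
    (h : IsUnif c J β E' v)
    (hmono : ∀ j ∈ J, ∀ A B : Finset ι, A ⊆ B → B ⊆ E' → ∀ e ∈ A, c j B e ≤ c j A e)
    (hN : Fintype.card γ + Fintype.card ρ ≤ N) (x : ι → γ ⊕ ρ → K)
    {idxF idxH : ℕ → κ} (k₀ i₁ : ℕ) (hk₀ : k₀ ≤ K₀) (hi₁ : i₁ ≤ K₀)
    (hF : IsFam c J idxF k₀ (fun e => x e ∘ Sum.inl) (fun _ => ())
      (restrictTotalDegree γ K) 1 (β ^ L))
    (hH : IsFam c J idxH i₁ x (fun _ => ()) (Vw K (wh γ ρ ((β ^ L) ^ k₀)))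
      ((β ^ L) ^ k₀) (β ^ L))
    {B : Finset ι} (hB : B ⊆ E') {r : ℕ} (hr : 2 * r ≤ q) (hd : E'.card < r * B.card) :
    (β ^ L) ^ (∑ k ∈ range k₀, (Fintype.card γ - v (idxF k)) +
        ∑ i ∈ range i₁, (Fintype.card γ + Fintype.card ρ - v (idxH i))) ≤
      (β ^ L) ^ (2 * (N * N) + 1) *
        rkF (Vw K (wh γ ρ ((β ^ L) ^ k₀))) (pts x B) ((β ^ L) ^ (k₀ + i₁)) := by
  classical
  have hb1 := hP.b_gt_one
  set b := β ^ L with hb
  have hW0 : ∀ i, wh γ ρ (b ^ k₀) i ≠ 0 := by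
    rintro (i | i)
    · exact one_ne_zero
    · exact (Nat.pow_pos (n := k₀) (by omega : 0 < b)).ne'
  have hWle : ∀ i, wh γ ρ (b ^ k₀) i ≤ b ^ k₀ := by
    rintro (i | i)
    · exact Nat.one_le_pow _ _ (by omega)
    · exact le_rfl
  set B₁ := core c J v B (K₀ * (L * k)) with hB₁
  have hB₁E : B₁ ⊆ E' := (core_subset _ _).trans hB
  have hd1 : E'.card < 2 * r * B₁.card := H580.core_dense hP h hmono hB hr hd
  obtain ⟨e₁, he₁⟩ := H580.core_nonempty hP h hmono hB (by omega : r ≤ q) hd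
  obtain ⟨e₂, he₂⟩ := H580.core_nonempty hP h hmono hB₁E (by omega : 2 * r ≤ q) hd1
  have hder1 : ∀ n (i : γ) (F : MvPolynomial γ K), F ∈ restrictTotalDegree γ K n →
      pderiv i F ∈ restrictTotalDegree γ K n := by
    intro n i F hF
    rw [← H580.Vw_one_eq] at hF ⊢
    exact H580.Vw_mono _ (by omega) (H580.pderiv_mem_Vw _ hF i)
  have hX1 : ∀ i : γ, (X i : MvPolynomial γ K) ∈ restrictTotalDegree γ K 1 := by
    intro i
    rw [← H580.Vw_one_eq]
    exact H580.X_mem_Vw _ i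
  have h1 := H580.fam_lower hP (H580.isFilt_total (k := K) (σ := γ)) hder1 hX1
    (by omega : Fintype.card γ ≤ N) hk₀ hF (A := B₁) he₂
  have h2 := H580.fam_lower hP (H580.isFilt_Vw (k := K) (wh γ ρ (b ^ k₀)) hW0)
    (fun n i F hF => H580.Vw_mono _ (Nat.sub_le _ _) (H580.pderiv_mem_Vw _ hF i))
    (fun i => H580.Vw_mono _ (hWle i) (H580.X_mem_Vw _ i))
    (by rw [Fintype.card_sum]; exact hN) hi₁ hH (A := B) he₁
  rw [fib_unit, fib_unit, one_mul] at h1
  rw [fib_unit, fib_unit, ← pow_add, Fintype.card_sum] at h2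
  have h3 := H580.hat_lower (K := K) x b (by omega) k₀ i₁ _ _ _ _ B B₁
    (core c J v B₁ (K₀ * (L * k))) ⟨e₂, he₂⟩ h1 h2
  refine h3.trans (Nat.mul_le_mul_right _ ?_)
  have h4 := hP.loss (Nat.zero_le N) (by omega : Fintype.card γ ≤ N) hN hk₀ hi₁
  simp only [pow_zero, one_mul] at h4
  have e1 : Fintype.card γ * Fintype.card γ ≤ N * N := Nat.mul_le_mul (by omega) (by omega)
  have e2 : (Fintype.card γ + Fintype.card ρ) * (Fintype.card γ + Fintype.card ρ) ≤ N * N :=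
    Nat.mul_le_mul hN hN
  calc ((C₁ ^ Fintype.card γ * (Fintype.card γ).factorial) ^ L) ^ k₀ *
        b ^ (Fintype.card γ * Fintype.card γ) *
        (((C₁ ^ (Fintype.card γ + Fintype.card ρ) *
          (Fintype.card γ + Fintype.card ρ).factorial) ^ L) ^ i₁ *
        b ^ ((Fintype.card γ + Fintype.card ρ) * (Fintype.card γ + Fintype.card ρ)))
      = (((C₁ ^ Fintype.card γ * (Fintype.card γ).factorial) ^ L) ^ k₀ *
          ((C₁ ^ (Fintype.card γ + Fintype.card ρ) *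
          (Fintype.card γ + Fintype.card ρ).factorial) ^ L) ^ i₁) *
        (b ^ (Fintype.card γ * Fintype.card γ) *
        b ^ ((Fintype.card γ + Fintype.card ρ) * (Fintype.card γ + Fintype.card ρ))) := by ring
    _ ≤ b * (b ^ (N * N) * b ^ (N * N)) :=
        Nat.mul_le_mul h4 (Nat.mul_le_mul (Nat.pow_le_pow_right (by omega) e1)
          (Nat.pow_le_pow_right (by omega) e2))
    _ = b ^ (2 * (N * N) + 1) := by ring

end lower

end Vale.Agent.P054.T2.H958
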