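import Vale.Agent.P054.T2.H958.DomHat
import Vale.Agent.P054.T2.H580.Inst

set_option autoImplicit false
set_option linter.unusedSectionVars false

/-!
# P054 / T2, [DOM-GLUE], literal: the triple family dominates the two hats
-/

open MvPolynomial Module Finset

namespace Vale.Agent.P054.T2.H958

open H930 (germ Pt ptc edgePt j1 j2)
open H686 (Crd leaf mu meet)
open H307 (van mem_van pts IsUnif IsFam fib fib_unit rst grL FI Ed cA cA_mono JA NN xF xH1 xH2 xT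
  wB)
open H580 (Vw rkF hilbF wh kap Par US)

attribute [local irreducible] Vale.Agent.P054.T2.H307.JA

/-- `(γ ⊕ ρ) ⊕ η ≃ γ ⊕ (ρ ⊕ η)` -/
def e1 (γ ρ η : Type*) : (γ ⊕ ρ) ⊕ η ≃ γ ⊕ (ρ ⊕ η) := Equiv.sumAssoc γ ρ η

/-- `(γ ⊕ ρ) ⊕ η ≃ γ ⊕ (η ⊕ ρ)` -/
def e2 (γ ρ η : Type*) : (γ ⊕ ρ) ⊕ η ≃ γ ⊕ (η ⊕ ρ) :=
  (Equiv.sumAssoc γ ρ η).trans (Equiv.sumCongr (Equiv.refl γ) (Equiv.sumComm ρ η))

theorem e1_inl (n : ℕ) : (e1 (Crd n) (Pt n) (Pt n) ∘ Sum.inl : Crd n ⊕ Pt n → _) = j1 n := by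
  funext y
  rcases y with y | y <;> rfl

theorem e2_inl (n : ℕ) : (e2 (Crd n) (Pt n) (Pt n) ∘ Sum.inl : Crd n ⊕ Pt n → _) = j2 n := by
  funext y
  rcases y with y | y <;> rfl

theorem e1_inr (n : ℕ) : (e1 (Crd n) (Pt n) (Pt n) ∘ Sum.inr : Pt n → _) = Sum.inr ∘ Sum.inr := by
  funext y; rfl

theorem e2_inr (n : ℕ) : (e2 (Crd n) (Pt n) (Pt n) ∘ Sum.inr : Pt n → _) = Sum.inr ∘ Sum.inl := by
  funext y; rfl

variable {n : ℕ} {K : Type*} [Field K] [CharZero K] [Infinite K]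

theorem xT_j1 (e : Ed n K) : xT e ∘ j1 n = xH1 e := by
  funext y
  rcases y with y | y <;> rfl

theorem xT_j2 (e : Ed n K) : xT e ∘ j2 n = xH2 e := by
  funext y
  rcases y with y | y <;> rfl

variable {k β C₁ L K' q : ℕ} {E' : Finset (Ed n K)} {v : FI × ℕ → ℕ}

/-- **[DOM], one side, literal.** -/
theorem dom_side (U : US n K k β C₁ L K' q E' v) (k₀ i₀ i₁ : ℕ) (hk₀ : k₀ ≤ K') (hi₁ : i₁ ≤ K')
    (ε : (Crd n ⊕ Pt n) ⊕ Pt n ≃ Crd n ⊕ (Pt n ⊕ Pt n))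
    (hε1 : ∀ y, ε (Sum.inl (Sum.inl y)) = Sum.inl y)
    (hε2 : ∀ y, ∃ z, ε (Sum.inl (Sum.inr y)) = Sum.inr z)
    (hε3 : ∀ y, ∃ z, ε (Sum.inr y) = Sum.inr z)
    {g gS : ℕ → FI × ℕ}
    (hFH : IsFam (cA n K (β ^ L)) (JA K') g K' (fun e => xT e ∘ ε ∘ Sum.inl) (fun _ => ())
      (Vw K (wh (Crd n) (Pt n) ((β ^ L) ^ k₀))) ((β ^ L) ^ k₀) (β ^ L))
    (hjS : gS i₀ ∈ JA K') (hFS : ∀ A e, cA n K (β ^ L) (gS i₀) A e =
      grL xT A (Vw K (wh (Crd n) (Pt n ⊕ Pt n) ((β ^ L) ^ k₀)) ((β ^ L) ^ k₀ * (β ^ L) ^ i₀))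
        (rst (ε ∘ Sum.inr)) (xT e))
    (hconst : ∀ i, i₀ ≤ i → i < i₁ → v (g i) = v (g i₀))
    (hwin : NN n * i₀ + 2 * (NN n * NN n) + 3 ≤ i₁)
    {m : ℕ} (hm : v (g i₀) = v (FI.F, k₀) + m) (hge : ∀ i ≤ i₀, v (FI.F, k₀) ≤ v (g i))
    (fH : Fin (v (FI.F, k₀) + m) → MvPolynomial (Crd n ⊕ Pt n) K)
    (hd : ∀ j : Fin (v (FI.F, k₀)), fH (Fin.castAdd m j) ∈ van (fun e => xT e ∘ ε ∘ Sum.inl) E'
      (Vw K (wh (Crd n) (Pt n) ((β ^ L) ^ k₀))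
        ((β ^ L) ^ kap (k₀ + 1) (fun i => v (FI.F, i)) (j : ℕ))))
    (hd' : ∀ j : Fin m, fH (Fin.natAdd (v (FI.F, k₀)) j) ∈
      van (fun e => xT e ∘ ε ∘ Sum.inl) E' (Vw K (wh (Crd n) (Pt n) ((β ^ L) ^ k₀))
        ((β ^ L) ^ (k₀ + kap (i₀ + 1) (fun i => v (g i)) (v (FI.F, k₀) + (j : ℕ))))))
    (hind : ∀ e ∈ E', LinearIndependent K
      (fun j => H930.grad (xT e ∘ ε ∘ Sum.inl) (fH j)))
    {cT : ℕ} (Ft : Fin cT → MvPolynomial (Crd n ⊕ (Pt n ⊕ Pt n)) K)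
    (hFt : ∀ j, Ft j ∈ van xT E' (Vw K (wh (Crd n) (Pt n ⊕ Pt n) ((β ^ L) ^ k₀))
      ((β ^ L) ^ k₀ * (β ^ L) ^ i₀)))
    {A : Finset (Ed n K)} (hA : A ⊆ E')
    (hFti : ∀ e ∈ A, LinearIndependent K (fun j => H930.grad (xT e) (Ft j)))
    (hr : E'.card ≤ 2 * A.card)
    (hrq : 2 * (2 * (2 * n + 2) ^ (2 * n + 2) + 1) ≤ q)
    (hgood : ∀ e ∈ A, ∀ F ∈ Vw K (wh (Crd n) (Pt n ⊕ Pt n) ((β ^ L) ^ k₀))
        ((β ^ L) ^ (k₀ + i₀ + 1)),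
      (∀ e' ∈ E', cA n K (β ^ L) (gS i₀) E' e' = v (gS i₀) → eval (xT e') F = 0) →
        F ∈ germ (xT e) Ft) :
    ∀ e ∈ A, cT = v (FI.F, k₀) + m + v (gS i₀) ∧
      (germ (xT e) Ft).comap (rename (R := K) (ε ∘ Sum.inl : Crd n ⊕ Pt n → _)) =
        germ (xT e ∘ ε ∘ Sum.inl) fH := by
  have hcP : Fintype.card (Pt n) = 2 * n + 2 := by simp [Pt]; ring
  have hcC : Fintype.card (Crd n) = 2 * n + 1 := by simp [Crd]; ring
  have hx : (fun e : Ed n K => (xT e ∘ ε ∘ Sum.inl) ∘ Sum.inl) = xF := by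
    funext e y
    change xT e (ε (Sum.inl (Sum.inl y))) = _
    rw [hε1]
    rfl
  have hi : i₀ ≤ i₁ := by
    rcases Nat.eq_zero_or_pos (NN n) with h0 | h0
    · unfold NN at h0; omega
    · have : i₀ ≤ NN n * i₀ := Nat.le_mul_of_pos_left _ h0
      omega
  have hN : Fintype.card (Crd n) + Fintype.card (Pt n) + Fintype.card (Pt n) ≤ NN n := by
    unfold NN; omega
  have hF : IsFam (cA n K (β ^ L)) (JA K') (fun i => (FI.F, i)) k₀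
      (fun e => (xT e ∘ ε ∘ Sum.inl) ∘ Sum.inl) (fun _ => ())
      (restrictTotalDegree (Crd n) K) 1 (β ^ L) := by
    rw [hx]; exact US.sub_fam U hk₀ U.famF
  have hH : IsFam (cA n K (β ^ L)) (JA K') g i₁ (fun e => xT e ∘ ε ∘ Sum.inl) (fun _ => ())
      (Vw K (wh (Crd n) (Pt n) ((β ^ L) ^ k₀))) ((β ^ L) ^ k₀) (β ^ L) :=
    US.sub_fam U hi₁ hFH
  have hw1 : ∀ y, wh (Crd n) (Pt n ⊕ Pt n) ((β ^ L) ^ k₀) (ε (Sum.inl (Sum.inl y))) = 1 :=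
    fun y => by rw [hε1]; rfl
  have hw2 : ∀ y, wh (Crd n) (Pt n ⊕ Pt n) ((β ^ L) ^ k₀) (ε (Sum.inl (Sum.inr y))) =
      (β ^ L) ^ k₀ := fun y => by obtain ⟨z, hz⟩ := hε2 y; rw [hz]; rfl
  have hw3 : ∀ y, wh (Crd n) (Pt n ⊕ Pt n) ((β ^ L) ^ k₀) (ε (Sum.inr y)) =
      (β ^ L) ^ k₀ := fun y => by obtain ⟨z, hz⟩ := hε3 y; rw [hz]; rfl
  exact dom_hat (c := cA n K (β ^ L)) (J := JA K') (v := v) (γ := Crd n) (ρ := Pt n)
    (η := Pt n) (τ := Crd n ⊕ (Pt n ⊕ Pt n)) (jS := gS i₀)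
    U.par U.unif U.mono ε hN xT
    (wh (Crd n) (Pt n ⊕ Pt n) ((β ^ L) ^ k₀)) k₀ i₀ i₁ hk₀ hi₁ hw1 hw2 hw3
    (idxF := fun i => (FI.F, i)) (idxH := g) hF hH hjS hFS hi hconst hwin rfl hm hge fH hd hd'
    hind Ft hFt hA hFti hr (by rw [hcP]; exact hrq) hgood

/-- **[DOM] + [GOOD] of the triple family, one side, with the exceptional set.** -/
theorem dom_side_pack (U : US n K k β C₁ L K' q E' v) (k₀ i₀ i₁ : ℕ) (hk₀ : k₀ ≤ K')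
    (hi₁ : i₁ ≤ K')
    (ε : (Crd n ⊕ Pt n) ⊕ Pt n ≃ Crd n ⊕ (Pt n ⊕ Pt n))
    (hε1 : ∀ y, ε (Sum.inl (Sum.inl y)) = Sum.inl y)
    (hε2 : ∀ y, ∃ z, ε (Sum.inl (Sum.inr y)) = Sum.inr z)
    (hε3 : ∀ y, ∃ z, ε (Sum.inr y) = Sum.inr z)
    {g gS : ℕ → FI × ℕ}
    (hFH : IsFam (cA n K (β ^ L)) (JA K') g K' (fun e => xT e ∘ ε ∘ Sum.inl) (fun _ => ())
      (Vw K (wh (Crd n) (Pt n) ((β ^ L) ^ k₀))) ((β ^ L) ^ k₀) (β ^ L))
    (hjS : gS i₀ ∈ JA K') (hFS : ∀ A e, cA n K (β ^ L) (gS i₀) A e =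
      grL xT A (Vw K (wh (Crd n) (Pt n ⊕ Pt n) ((β ^ L) ^ k₀)) ((β ^ L) ^ k₀ * (β ^ L) ^ i₀))
        (rst (ε ∘ Sum.inr)) (xT e))
    (hconst : ∀ i, i₀ ≤ i → i < i₁ → v (g i) = v (g i₀))
    (hconstT : ∀ i, i₀ ≤ i → i < i₁ → v (FI.T k₀, i) = v (FI.T k₀, i₀))
    (hwin : NN n * i₀ + 2 * (NN n * NN n) + 3 ≤ i₁)
    {m : ℕ} (hm : v (g i₀) = v (FI.F, k₀) + m) (hge : ∀ i ≤ i₀, v (FI.F, k₀) ≤ v (g i))
    (fH : Fin (v (FI.F, k₀) + m) → MvPolynomial (Crd n ⊕ Pt n) K)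
    (hd : ∀ j : Fin (v (FI.F, k₀)), fH (Fin.castAdd m j) ∈ van (fun e => xT e ∘ ε ∘ Sum.inl) E'
      (Vw K (wh (Crd n) (Pt n) ((β ^ L) ^ k₀))
        ((β ^ L) ^ kap (k₀ + 1) (fun i => v (FI.F, i)) (j : ℕ))))
    (hd' : ∀ j : Fin m, fH (Fin.natAdd (v (FI.F, k₀)) j) ∈
      van (fun e => xT e ∘ ε ∘ Sum.inl) E' (Vw K (wh (Crd n) (Pt n) ((β ^ L) ^ k₀))
        ((β ^ L) ^ (k₀ + kap (i₀ + 1) (fun i => v (g i)) (v (FI.F, k₀) + (j : ℕ))))))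
    (hind : ∀ e ∈ E', LinearIndependent K
      (fun j => H930.grad (xT e ∘ ε ∘ Sum.inl) (fH j)))
    {mT : ℕ} (hmT : v (FI.T k₀, i₀) = v (FI.F, k₀) + mT)
    (hgeT : ∀ i ≤ i₀, v (FI.F, k₀) ≤ v (FI.T k₀, i))
    (Ft : Fin (v (FI.F, k₀) + mT) → MvPolynomial (Crd n ⊕ (Pt n ⊕ Pt n)) K)
    (hT1 : ∀ j : Fin (v (FI.F, k₀)), Ft (Fin.castAdd mT j) ∈ van xT E'
      (Vw K (wh (Crd n) (Pt n ⊕ Pt n) ((β ^ L) ^ k₀))
        ((β ^ L) ^ kap (k₀ + 1) (fun i => v (FI.F, i)) (j : ℕ))))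
    (hT2 : ∀ j : Fin mT, Ft (Fin.natAdd (v (FI.F, k₀)) j) ∈ van xT E'
      (Vw K (wh (Crd n) (Pt n ⊕ Pt n) ((β ^ L) ^ k₀))
        ((β ^ L) ^ (k₀ + kap (i₀ + 1) (fun i => v (FI.T k₀, i)) (v (FI.F, k₀) + j)))))
    (hT3 : ∀ e ∈ E', LinearIndependent K (fun j => H930.grad (xT e) (Ft j)))
    (r : ℕ) (hrq1 : 8 * (r + 2) ≤ q)
    (hrq : 2 * (2 * (2 * n + 2) ^ (2 * n + 2) + 1) ≤ q) :
    ∃ Y ⊆ E', r * Y.card ≤ E'.card ∧ ∀ e ∈ E', e ∉ Y →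
      (∀ F ∈ Vw K (wh (Crd n) (Pt n ⊕ Pt n) ((β ^ L) ^ k₀)) ((β ^ L) ^ (k₀ + (i₀ + 1))),
        (∀ e' ∈ E', eval (xT e') F = 0) → F ∈ germ (xT e) Ft) ∧
      v (FI.F, k₀) + mT = v (FI.F, k₀) + m + v (gS i₀) ∧
      (germ (xT e) Ft).comap (rename (R := K) (ε ∘ Sum.inl : Crd n ⊕ Pt n → _)) =
        germ (xT e ∘ ε ∘ Sum.inl) fH := by
  classical
  have hb1 := U.par.b_gt_one
  have hNN : 1 ≤ NN n := by unfold NN; omega
  have hi : i₀ + 2 * (NN n * NN n) + 3 ≤ i₁ := by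
    have : i₀ ≤ NN n * i₀ := Nat.le_mul_of_pos_left _ hNN
    omega
  have hqβ : q ≤ β := by
    refine le_trans ?_ U.par.hq
    have h1 : 1 ≤ K' := by omega
    have h2 : 1 ≤ (JA K').card := Finset.card_pos.2 ⟨_, hjS⟩
    have h3 : 1 ≤ L * k := Nat.mul_pos U.par.hL U.par.hk
    have h4 : 1 ≤ K' * (L * k) * (JA K').card := Nat.mul_pos (Nat.mul_pos h1 h3) h2
    exact Nat.le_mul_of_pos_right _ h4
  set AS := E'.filter (fun e => cA n K (β ^ L) (gS i₀) E' e = v (gS i₀)) with hAS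
  have hASE : AS ⊆ E' := Finset.filter_subset _ _
  have hbadS : β * (E' \ AS).card ≤ E'.card := by
    have h1 := U.unif.card_ne_one U.mono hjS (Finset.Subset.refl E')
    refine le_trans (Nat.mul_le_mul_left _ (Finset.card_le_card ?_)) h1
    intro e he
    obtain ⟨h2, h3⟩ := Finset.mem_sdiff.1 he
    refine Finset.mem_filter.2 ⟨h2, fun h4 => h3 (Finset.mem_filter.2 ⟨h2, h4⟩)⟩
  have hcardS : (E' \ AS).card + AS.card = E'.card := Finset.card_sdiff_add_card_eq_card hASE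
  set β' := 2 * (r + 2) with hβ'
  have hSd : β' * (E' \ AS).card ≤ E'.card :=
    le_trans (Nat.mul_le_mul_right _ (by omega)) hbadS
  have hE2 : E'.card ≤ 2 * AS.card := by
    have h1 : 2 * (E' \ AS).card ≤ β' * (E' \ AS).card := Nat.mul_le_mul_right _ (by omega)
    omega
  set Y₀ := AS.filter (fun e => ∃ G ∈ Vw K (wh (Crd n) (Pt n ⊕ Pt n) ((β ^ L) ^ k₀))
    ((β ^ L) ^ (k₀ + (i₀ + 1))), (∀ a ∈ AS, eval (xT a) G = 0) ∧ G ∉ germ (xT e) Ft) with hY₀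
  have hY₀c : β' * Y₀.card ≤ AS.card :=
    U.goodHat (fun e => rfl) (H580.card_T_le n) k₀ hk₀ (U.famT k₀ hk₀) i₀ i₁ (by omega) hi₁
      hconstT hmT hgeT Ft hT1 hT2 hT3 hASE hE2 (by omega) (i₀ + 1) (by omega) Y₀
      (Finset.filter_subset _ _) (fun e he => (Finset.mem_filter.1 he).2)
  set A := AS \ Y₀ with hA
  have hAE : A ⊆ E' := Finset.sdiff_subset.trans hASE
  have hcardA : (E' \ A).card ≤ (E' \ AS).card + Y₀.card := by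
    refine le_trans (Finset.card_le_card ?_) (Finset.card_union_le _ _)
    intro e he
    obtain ⟨h1, h2⟩ := Finset.mem_sdiff.1 he
    by_cases h3 : e ∈ AS
    · refine Finset.mem_union_right _ ?_
      by_contra h4
      exact h2 (Finset.mem_sdiff.2 ⟨h3, h4⟩)
    · exact Finset.mem_union_left _ (Finset.mem_sdiff.2 ⟨h1, h3⟩)
  have hYd : β' * (E' \ A).card ≤ 2 * E'.card := by
    have h1 : β' * (E' \ A).card ≤ β' * (E' \ AS).card + β' * Y₀.card := by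
      rw [← mul_add]; exact Nat.mul_le_mul_left _ hcardA
    omega
  have hYd' : (r + 2) * (E' \ A).card ≤ E'.card := by
    have h1 : β' * (E' \ A).card = 2 * ((r + 2) * (E' \ A).card) := by rw [hβ']; ring
    omega
  have hcardA' : (E' \ A).card + A.card = E'.card := Finset.card_sdiff_add_card_eq_card hAE
  have hA2 : E'.card ≤ 2 * A.card := by
    have h1 : 2 * (E' \ A).card ≤ (r + 2) * (E' \ A).card := Nat.mul_le_mul_right _ (by omega)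
    omega
  have hgoodA : ∀ e ∈ A, ∀ F ∈ Vw K (wh (Crd n) (Pt n ⊕ Pt n) ((β ^ L) ^ k₀))
      ((β ^ L) ^ (k₀ + (i₀ + 1))), (∀ e' ∈ AS, eval (xT e') F = 0) → F ∈ germ (xT e) Ft := by
    intro e he F hF hF0
    obtain ⟨h1, h2⟩ := Finset.mem_sdiff.1 he
    by_contra h3
    exact h2 (Finset.mem_filter.2 ⟨h1, F, hF, hF0, h3⟩)
  have hTmono : ∀ k l : ℕ, k ≤ l → l ≤ k₀ → v (FI.F, k) ≤ v (FI.F, l) := fun k l hkl hl =>
    U.unif.fam_mono U.ne U.par.beta_gt_one (H580.isFilt_total (k := K)).mono hb1.le U.famF hkl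
      (hl.trans hk₀)
  have hTmono' : ∀ k l : ℕ, k ≤ l → l ≤ i₀ → v (FI.T k₀, k) ≤ v (FI.T k₀, l) :=
    fun k l hkl hl => U.unif.fam_mono U.ne U.par.beta_gt_one (H580.Vw_mono _) hb1.le
      (U.famT k₀ hk₀) hkl (by omega)
  have hFtv : ∀ j, Ft j ∈ van xT E' (Vw K (wh (Crd n) (Pt n ⊕ Pt n) ((β ^ L) ^ k₀))
      ((β ^ L) ^ k₀ * (β ^ L) ^ i₀)) := by
    intro j
    refine Fin.addCases (fun j => ?_) (fun j => ?_) j
    · refine H307.van_mono (Finset.Subset.refl _) (H580.Vw_mono _ ?_) (hT1 j)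
      rw [← pow_add]
      refine Nat.pow_le_pow_right hb1.le ?_
      have := kap_le_sub (v := fun i => v (FI.F, i)) (K' := k₀) (j := j) j.2 hTmono
      omega
    · refine H307.van_mono (Finset.Subset.refl _) (H580.Vw_mono _ ?_) (hT2 j)
      rw [← pow_add]
      refine Nat.pow_le_pow_right hb1.le ?_
      have := kap_le_sub (v := fun i => v (FI.T k₀, i)) (K' := i₀) (j := v (FI.F, k₀) + j)
        (by have := j.2; omega) hTmono'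
      omega
  have key := dom_side U k₀ i₀ i₁ hk₀ hi₁ ε hε1 hε2 hε3 hFH hjS hFS hconst hwin hm hge fH hd hd'
    hind Ft hFtv hAE (fun e he => hT3 e (hAE he)) hA2 hrq (by
      intro e he F hF hF0
      refine hgoodA e he F ?_ (fun e' he' => ?_)
      · rw [← add_assoc]; exact hF
      · obtain ⟨h1, h2⟩ := Finset.mem_filter.1 he'
        exact hF0 e' h1 h2)
  refine ⟨E' \ A, Finset.sdiff_subset, ?_, ?_⟩
  · exact le_trans (Nat.mul_le_mul_right _ (by omega)) hYd'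
  · intro e he heY
    have heA : e ∈ A := by
      by_contra h1
      exact heY (Finset.mem_sdiff.2 ⟨he, h1⟩)
    exact ⟨fun F hF hF0 => hgoodA e heA F hF (fun e' he' => hF0 e' (hASE he')), key e heA⟩

end Vale.Agent.P054.T2.H958
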