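import Vale.Agent.P054.T2.H958.DomT

set_option autoImplicit false
set_option linter.unusedSectionVars false

/-!
# P054 / T2, [T-PACK]: the triple family over a uniform set: system, [GOOD], [DOM] on both sides
-/

open MvPolynomial Module Finset

namespace Vale.Agent.P054.T2.H958

open H930 (germ Pt ptc edgePt j1 j2)
open H686 (Crd leaf mu meet)
open H307 (van mem_van pts IsUnif IsFam fib fib_unit rst grL FI Ed cA cA_mono JA NN xF xH1 xH2 xT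
  wB)
open H580 (Vw rkF hilbF wh kap Par US)

attribute [local irreducible] Vale.Agent.P054.T2.H307.JA

variable {n : ℕ} {K : Type*} [Field K] [CharZero K] [Infinite K]
variable {k β C₁ L K' q : ℕ} {E' : Finset (Ed n K)} {v : FI × ℕ → ℕ}

theorem famTS (_U : US n K k β C₁ L K' q E' v) (k₀ i₀ : ℕ) (hk₀ : k₀ ≤ K') (hi₀ : i₀ ≤ K') :
    (FI.TS k₀, i₀) ∈ JA K' ∧ ∀ A e, cA n K (β ^ L) (FI.TS k₀, i₀) A e =
      grL xT A (Vw K (wh (Crd n) (Pt n ⊕ Pt n) ((β ^ L) ^ k₀)) ((β ^ L) ^ k₀ * (β ^ L) ^ i₀))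
        (rst (e2 (Crd n) (Pt n) (Pt n) ∘ Sum.inr)) (xT e) := by
  have h := H307.isFam_TS (n := n) (K := K) (β ^ L) K' k₀ hk₀ i₀ hi₀
  refine ⟨h.1, fun A e => ?_⟩
  rw [h.2 A e, e2_inr]
  unfold H307.gfL
  rw [fib_unit]
  rfl

theorem famTR (_U : US n K k β C₁ L K' q E' v) (k₀ i₀ : ℕ) (hk₀ : k₀ ≤ K') (hi₀ : i₀ ≤ K') :
    (FI.TR k₀, i₀) ∈ JA K' ∧ ∀ A e, cA n K (β ^ L) (FI.TR k₀, i₀) A e =
      grL xT A (Vw K (wh (Crd n) (Pt n ⊕ Pt n) ((β ^ L) ^ k₀)) ((β ^ L) ^ k₀ * (β ^ L) ^ i₀))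
        (rst (e1 (Crd n) (Pt n) (Pt n) ∘ Sum.inr)) (xT e) := by
  have h := H307.isFam_TR (n := n) (K := K) (β ^ L) K' k₀ hk₀ i₀ hi₀
  refine ⟨h.1, fun A e => ?_⟩
  rw [h.2 A e, e1_inr]
  unfold H307.gfL
  rw [fib_unit]
  rfl

/-- **[T-PACK].**  `f` the system of the edges, `F₁`, `F₂` the systems of the hats `H1`, `H2` at
`k₀`, `i₀` (as in `US.sysHat`); windows `[i₀, i₁)` of `H1 k₀`, `H2 k₀`, `T k₀`. -/
theorem tpack (U : US n K k β C₁ L K' q E' v) (k₀ i₀ i₁ : ℕ) (hk₀ : k₀ ≤ K') (hi₁ : i₁ ≤ K')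
    (hc1 : ∀ i, i₀ ≤ i → i < i₁ → v (FI.H1 k₀, i) = v (FI.H1 k₀, i₀))
    (hc2 : ∀ i, i₀ ≤ i → i < i₁ → v (FI.H2 k₀, i) = v (FI.H2 k₀, i₀))
    (hcT : ∀ i, i₀ ≤ i → i < i₁ → v (FI.T k₀, i) = v (FI.T k₀, i₀))
    (hwin : NN n * i₀ + 2 * (NN n * NN n) + 3 ≤ i₁)
    (f : Fin (v (FI.F, k₀)) → MvPolynomial (Crd n) K)
    (hf : ∀ j : Fin (v (FI.F, k₀)), f j ∈ van xF E' (restrictTotalDegree (Crd n) K
      ((β ^ L) ^ kap (k₀ + 1) (fun i => v (FI.F, i)) (j : ℕ))))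
    (hfi : ∀ e ∈ E', LinearIndependent K (fun j => H930.grad (xF e) (f j)))
    {m₁ m₂ : ℕ} (hm1 : v (FI.H1 k₀, i₀) = v (FI.F, k₀) + m₁)
    (hm2 : v (FI.H2 k₀, i₀) = v (FI.F, k₀) + m₂)
    (F₁ : Fin (v (FI.F, k₀) + m₁) → MvPolynomial (Crd n ⊕ Pt n) K)
    (h1a : ∀ j : Fin (v (FI.F, k₀)), F₁ (Fin.castAdd m₁ j) ∈ van xH1 E'
      (Vw K (wh (Crd n) (Pt n) ((β ^ L) ^ k₀))
        ((β ^ L) ^ kap (k₀ + 1) (fun i => v (FI.F, i)) (j : ℕ))))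
    (h1b : ∀ j : Fin m₁, F₁ (Fin.natAdd (v (FI.F, k₀)) j) ∈ van xH1 E'
      (Vw K (wh (Crd n) (Pt n) ((β ^ L) ^ k₀))
        ((β ^ L) ^ (k₀ + kap (i₀ + 1) (fun i => v (FI.H1 k₀, i)) (v (FI.F, k₀) + (j : ℕ))))))
    (h1c : ∀ e ∈ E', LinearIndependent K (fun j => H930.grad (xH1 e) (F₁ j)))
    (F₂ : Fin (v (FI.F, k₀) + m₂) → MvPolynomial (Crd n ⊕ Pt n) K)
    (h2a : ∀ j : Fin (v (FI.F, k₀)), F₂ (Fin.castAdd m₂ j) ∈ van xH2 E'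
      (Vw K (wh (Crd n) (Pt n) ((β ^ L) ^ k₀))
        ((β ^ L) ^ kap (k₀ + 1) (fun i => v (FI.F, i)) (j : ℕ))))
    (h2b : ∀ j : Fin m₂, F₂ (Fin.natAdd (v (FI.F, k₀)) j) ∈ van xH2 E'
      (Vw K (wh (Crd n) (Pt n) ((β ^ L) ^ k₀))
        ((β ^ L) ^ (k₀ + kap (i₀ + 1) (fun i => v (FI.H2 k₀, i)) (v (FI.F, k₀) + (j : ℕ))))))
    (h2c : ∀ e ∈ E', LinearIndependent K (fun j => H930.grad (xH2 e) (F₂ j)))
    (r : ℕ) (hrq1 : 8 * (2 * r + 2) ≤ q)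
    (hrq : 2 * (2 * (2 * n + 2) ^ (2 * n + 2) + 1) ≤ q) :
    ∃ (cT : ℕ) (Ft : Fin cT → MvPolynomial (Crd n ⊕ (Pt n ⊕ Pt n)) K),
      (∀ j, Ft j ∈ van xT E' (Vw K (wh (Crd n) (Pt n ⊕ Pt n) ((β ^ L) ^ k₀))
        ((β ^ L) ^ (k₀ + i₀)))) ∧
      (∀ e ∈ E', LinearIndependent K (fun j => H930.grad (xT e) (Ft j))) ∧
      ∃ Y ⊆ E', r * Y.card ≤ E'.card ∧ ∀ e ∈ E', e ∉ Y →
        (∀ F ∈ Vw K (wh (Crd n) (Pt n ⊕ Pt n) ((β ^ L) ^ k₀)) ((β ^ L) ^ (k₀ + (i₀ + 1))),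
          (∀ e' ∈ E', eval (xT e') F = 0) → F ∈ germ (xT e) Ft) ∧
        cT = v (FI.F, k₀) + m₁ + v (FI.TR k₀, i₀) ∧
        cT = v (FI.F, k₀) + m₂ + v (FI.TS k₀, i₀) ∧
        (germ (xT e) Ft).comap (rename (R := K) (j1 n)) = germ (xH1 e) F₁ ∧
        (germ (xT e) Ft).comap (rename (R := K) (j2 n)) = germ (xH2 e) F₂ := by
  classical
  have hb1 := U.par.b_gt_one
  have hNN : 1 ≤ NN n := by unfold NN; omega
  have hi : i₀ + 2 * (NN n * NN n) + 3 ≤ i₁ := by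
    have : i₀ ≤ NN n * i₀ := Nat.le_mul_of_pos_left _ hNN
    omega
  obtain ⟨hgeT, hsysT⟩ := U.sysHat (x := xT) (fun e => rfl) k₀ hk₀ (U.famT k₀ hk₀) f hf hfi
  obtain ⟨hge1, -⟩ := U.sysHat (x := xH1) (fun e => rfl) k₀ hk₀ (U.famH1 k₀ hk₀) f hf hfi
  obtain ⟨hge2, -⟩ := U.sysHat (x := xH2) (fun e => rfl) k₀ hk₀ (U.famH2 k₀ hk₀) f hf hfi
  obtain ⟨mT, hmT⟩ := Nat.exists_eq_add_of_le (hgeT i₀ (by omega))
  obtain ⟨Ft, -, hT1, hT2, hT3⟩ := hsysT i₀ (by omega) mT hmT.symm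
  have hx1 : (fun e : Ed n K => xT e ∘ e1 (Crd n) (Pt n) (Pt n) ∘ Sum.inl) = xH1 := by
    funext e
    rw [e1_inl, xT_j1]
  have hx2 : (fun e : Ed n K => xT e ∘ e2 (Crd n) (Pt n) (Pt n) ∘ Sum.inl) = xH2 := by
    funext e
    rw [e2_inl, xT_j2]
  have hx1' : ∀ e : Ed n K, xT e ∘ e1 (Crd n) (Pt n) (Pt n) ∘ Sum.inl = xH1 e :=
    fun e => congrFun hx1 e
  have hx2' : ∀ e : Ed n K, xT e ∘ e2 (Crd n) (Pt n) (Pt n) ∘ Sum.inl = xH2 e :=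
    fun e => congrFun hx2 e
  obtain ⟨Y₁, hY1E, hY1c, hY1⟩ := dom_side_pack U k₀ i₀ i₁ hk₀ hi₁ (e1 (Crd n) (Pt n) (Pt n))
    (fun y => rfl) (fun y => ⟨Sum.inl y, rfl⟩) (fun y => ⟨Sum.inr y, rfl⟩)
    (g := fun i => (FI.H1 k₀, i)) (gS := fun i => (FI.TR k₀, i))
    (by rw [hx1]; exact U.famH1 k₀ hk₀) (famTR U k₀ i₀ hk₀ (by omega)).1
    (famTR U k₀ i₀ hk₀ (by omega)).2 hc1 hcT hwin hm1 (fun i hi => hge1 i (by omega)) F₁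
    (by rw [hx1]; exact h1a) (by rw [hx1]; exact h1b) (fun e he => by rw [hx1']; exact h1c e he)
    hmT (fun i hi => hgeT i (by omega)) Ft hT1 hT2 hT3 (2 * r) hrq1 hrq
  obtain ⟨Y₂, hY2E, hY2c, hY2⟩ := dom_side_pack U k₀ i₀ i₁ hk₀ hi₁ (e2 (Crd n) (Pt n) (Pt n))
    (fun y => rfl) (fun y => ⟨Sum.inr y, rfl⟩) (fun y => ⟨Sum.inl y, rfl⟩)
    (g := fun i => (FI.H2 k₀, i)) (gS := fun i => (FI.TS k₀, i))
    (by rw [hx2]; exact U.famH2 k₀ hk₀) (famTS U k₀ i₀ hk₀ (by omega)).1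
    (famTS U k₀ i₀ hk₀ (by omega)).2 hc2 hcT hwin hm2 (fun i hi => hge2 i (by omega)) F₂
    (by rw [hx2]; exact h2a) (by rw [hx2]; exact h2b) (fun e he => by rw [hx2']; exact h2c e he)
    hmT (fun i hi => hgeT i (by omega)) Ft hT1 hT2 hT3 (2 * r) hrq1 hrq
  refine ⟨v (FI.F, k₀) + mT, Ft, ?_, hT3, Y₁ ∪ Y₂, Finset.union_subset hY1E hY2E, ?_, ?_⟩
  · intro j
    refine Fin.addCases (fun j => ?_) (fun j => ?_) j
    · refine H307.van_mono (Finset.Subset.refl _) (H580.Vw_mono _ ?_) (hT1 j)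
      refine Nat.pow_le_pow_right hb1.le ?_
      have := kap_le_sub (v := fun i => v (FI.F, i)) (K' := k₀) (j := j) j.2
        (fun k l hkl hl => U.unif.fam_mono U.ne U.par.beta_gt_one
          (H580.isFilt_total (k := K)).mono hb1.le U.famF hkl (hl.trans hk₀))
      omega
    · refine H307.van_mono (Finset.Subset.refl _) (H580.Vw_mono _ ?_) (hT2 j)
      refine Nat.pow_le_pow_right hb1.le ?_
      have := kap_le_sub (v := fun i => v (FI.T k₀, i)) (K' := i₀) (j := v (FI.F, k₀) + j)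
        (by have := j.2; omega) (fun k l hkl hl => U.unif.fam_mono U.ne U.par.beta_gt_one
          (H580.Vw_mono _) hb1.le (U.famT k₀ hk₀) hkl (by omega))
      omega
  · have h1 := Finset.card_union_le Y₁ Y₂
    have h2 : r * (Y₁ ∪ Y₂).card ≤ r * (Y₁.card + Y₂.card) := Nat.mul_le_mul_left _ h1
    have h3 : 2 * (r * (Y₁.card + Y₂.card)) = 2 * r * Y₁.card + 2 * r * Y₂.card := by ring
    omega
  · intro e he heY
    have hn1 : e ∉ Y₁ := fun h => heY (Finset.mem_union_left _ h)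
    have hn2 : e ∉ Y₂ := fun h => heY (Finset.mem_union_right _ h)
    obtain ⟨hg, hc, hd1⟩ := hY1 e he hn1
    obtain ⟨-, hc', hd2⟩ := hY2 e he hn2
    rw [e1_inl, xT_j1] at hd1
    rw [e2_inl, xT_j2] at hd2
    exact ⟨hg, hc, hc', hd1, hd2⟩

end Vale.Agent.P054.T2.H958
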